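import Vale.Agent.P363.Inter.Defs

/-!
P363, interacting side: the statements proved in `Inter/Slice/*` and used by the barrier part.
A weak differential inequality for the norm `u` of a slice is written
`WeakSubPoisson U u (fun x => 2 * (m x * u x - S x))`, that is `-Δu/2 + m u ≤ S`.
Every statement is uniform in the coupling.
-/

noncomputable section

namespace Vale.Agent.P363.Inter

open MeasureTheory Filter Metric
open scoped BigOperators Topology

/-- The exponential moments of the three ion states and the repulsion on them: `2 / r` up to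
`r⁻²`; the part of `repel · χ` odd under the mirror is of order `|z| / r³`. -/
def RepelStmt : Prop :=
  ∀ l g u Dg Du eg eu e', ZeroOrder l g u Dg Du eg eu e' → ∀ C : ℝ,
    ∃ lam₀ ε K : ℝ, 0 < lam₀ ∧ 0 < ε ∧ ForStates l C g u Dg Du eg eu
      (fun _ _ _ _ _ χ _ _ χs _ χt =>
        (∀ φ ∈ [χ, χs, χt], ∀ δ, 0 ≤ δ → MemLp (fun y => weight ε δ y * φ y) 2 ∧
          nrmN (fun y => weight ε δ y * φ y) ≤ K) ∧
        ∀ x : Space,
          (∀ φ ∈ [χ, χs, χt], MemLp (fun y => repel x y * φ y) 2 ∧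
            nrmN (fun y => repel x y * φ y) ≤ K ∧
            (1 ≤ ‖x‖ → nrmN (fun y => (repel x y - 2 / ‖x‖) * φ y) ≤ K / ‖x‖ ^ 2)) ∧
          (1 ≤ ‖x‖ → nrmN (parPart (-1) fun y => repel x y * χ y) ≤
            K * (|height x| / ‖x‖ ^ 3 + Real.exp (-(ε * ‖x‖))))) lam₀

/-- The ion with a distant point charge. -/
def IonFarStmt : Prop :=
  ∀ l g u Dg Du eg eu e', ZeroOrder l g u Dg Du eg eu e' → ∀ C : ℝ,
    ∃ lam₀ K : ℝ, 0 < lam₀ ∧ ForStates l C g u Dg Du eg eu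
      (fun lam _ _ _ E2 _ _ _ _ Et _ => ∀ x : Space, 1 ≤ ‖x‖ → ∀ ξ, IsRealTest ξ →
        (E2 + 2 * lam / ‖x‖ - K * lam / ‖x‖ ^ 2) * ipN ξ ξ ≤
            formQ l lam ξ + lam * ∫ y, repel x y * ξ y ^ 2 ∧
        (Anti01 ξ → (Et + 2 * lam / ‖x‖ - K * lam / ‖x‖ ^ 2) * ipN ξ ξ ≤
            formQ l lam ξ + lam * ∫ y, repel x y * ξ y ^ 2)) lam₀

/-- The equation of the amplitude of an ion state. -/
def AmpStmt : Prop :=
  ∀ l lam E3 f D, 0 ≤ lam → IsLowest l lam Anti01 E3 f D →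
    ∀ (P : (Cfg 2 → ℝ) → Prop) (E : ℝ) χ Dχ, IsLowest l lam P E χ Dχ → ∀ i : Fin 3,
      WeakPoisson Set.univ (ampAt i χ f) fun x => 2 * ((E - E3 - attract l x) * ampAt i χ f x +
        lam * ipN (fun y => repel x y * χ y) (slice i f x))

/-- The whole up slice and the down slice. -/
def NormStmt : Prop :=
  ∀ l g u Dg Du eg eu e', ZeroOrder l g u Dg Du eg eu e' → ∀ C : ℝ,
    ∃ lam₀ K : ℝ, 0 < lam₀ ∧ ForStates l C g u Dg Du eg eu
      (fun lam E3 f _ E2 _ _ _ _ Et _ =>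
        WeakSubPoisson Set.univ (uTot f) (fun x =>
          2 * ((E2 - E3 - attract l x) * uTot f x)) ∧
        WeakSubPoisson Set.univ (uDown f) (fun x =>
          2 * ((Et - E3 - attract l x) * uDown f x)) ∧
        WeakSubPoisson {x : Space | 1 < ‖x‖} (uTot f) (fun x =>
          2 * ((E2 - E3 - attract l x + 2 * lam / ‖x‖ - K * lam / ‖x‖ ^ 2) * uTot f x)) ∧
        WeakSubPoisson {x : Space | 1 < ‖x‖} (uDown f) fun x =>
          2 * ((Et - E3 - attract l x + 2 * lam / ‖x‖ - K * lam / ‖x‖ ^ 2) * uDown f x)) lam₀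

/-- The excited part. -/
def PerpStmt : Prop :=
  ∀ l g u Dg Du eg eu e', ZeroOrder l g u Dg Du eg eu e' → ∀ C : ℝ,
    ∃ lam₀ K : ℝ, 0 < lam₀ ∧ ForStates l C g u Dg Du eg eu
      (fun lam E3 f _ E2 χ _ _ _ _ _ => WeakSubPoisson Set.univ (uPerp χ f) fun x =>
        2 * ((E2 + (eu - eg) / 2 - E3 - attract l x) * uPerp χ f x -
          K * lam / (1 + ‖x‖ ^ 2) * |amp χ f x|)) lam₀

/-- The weighted excited part, uniformly in the regularisation of the weight. -/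
def WeightStmt : Prop :=
  ∀ l g u Dg Du eg eu e', ZeroOrder l g u Dg Du eg eu e' → ∀ C : ℝ,
    ∃ lam₀ ε₀ K : ℝ, 0 < lam₀ ∧ 0 < ε₀ ∧ ForStates l C g u Dg Du eg eu
      (fun lam E3 f _ E2 χ _ _ _ _ _ => ∀ ε ∈ Set.Ioc 0 ε₀, ∀ δ > 0,
        WeakSubPoisson Set.univ (uWeight ε δ χ f) fun x =>
          2 * ((E2 + (eu - eg) / 4 - E3 - attract l x) * uWeight ε δ χ f x -
            K * (uPerp χ f x + lam / (1 + ‖x‖ ^ 2) * |amp χ f x|))) lam₀

/-- The kinetic energy in the ion variables of the weighted excited part, `x` fixed. -/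
def ionKin (ε δ : ℝ) (χ : Cfg 2 → ℝ) (f : Cfg 3 → ℝ)
    (D : Fin 3 → Fin 3 → Cfg 3 → ℝ) (Dχ : Fin 2 → Fin 3 → Cfg 2 → ℝ) (x : Space) : ℝ :=
  ∑ k, ∑ a, ∫ y,
    (weight ε δ y * (slice 0 (D ((0 : Fin 3).succAbove k) a) x y - amp χ f x * Dχ k a y)) ^ 2

/-- Caccioppoli for the weighted excited part: the ion gradient in mean square. -/
def WeightEnergyStmt : Prop :=
  ∀ l g u Dg Du eg eu e', ZeroOrder l g u Dg Du eg eu e' → ∀ C : ℝ,
    ∃ lam₀ ε₀ K : ℝ, 0 < lam₀ ∧ 0 < ε₀ ∧ ForStates l C g u Dg Du eg eu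
      (fun lam _ f D _ χ Dχ _ _ _ _ => ∀ ε ∈ Set.Ioc 0 ε₀, ∀ δ > 0,
        ∀ η : Space → ℝ, IsBump Set.univ η →
          ∫ x, η x ^ 2 * ionKin ε δ χ f D Dχ x ≤
            K * ∫ x, (η x ^ 2 + ∑ a, deriv3 a η x ^ 2) * (uWeight ε δ χ f x ^ 2 +
              uPerp χ f x ^ 2 + lam ^ 2 / (1 + ‖x‖ ^ 2) ^ 2 * amp χ f x ^ 2)) lam₀

/-- What the far part of the repulsion leaves: small in mean square with exponential gain. -/
def farSource (ε : ℝ) (χ : Cfg 2 → ℝ) (f : Cfg 3 → ℝ) (D : Fin 3 → Fin 3 → Cfg 3 → ℝ)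
    (Dχ : Fin 2 → Fin 3 → Cfg 2 → ℝ) (x : Space) : ℝ :=
  Real.exp (-(ε * ‖x‖ / 2)) * (uWeight ε 0 χ f x + Real.sqrt (ionKin ε 0 χ f D Dχ x))

/-- The parts of the excited slice of either parity; `σ = -1` is the part even in `x`. The part
odd in `x` vanishes on the plane, so above a positive barrier it extends by zero. Finite
exponential moments of the state are assumed, so that the weighted norms are finite. -/
def ParStmt : Prop :=
  ∀ l g u Dg Du eg eu e', ZeroOrder l g u Dg Du eg eu e' → ∀ C : ℝ,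
    ∃ lam₀ ε₀ K : ℝ, 0 < lam₀ ∧ 0 < ε₀ ∧ ForStates l C g u Dg Du eg eu
      (fun lam E3 f D E2 χ Dχ _ _ _ _ => ∀ ε ∈ Set.Ioc 0 ε₀,
        Integrable (fun x : Cfg 3 => (∑ i, Real.exp (8 * ε * ‖x i‖)) * f x ^ 2) →
        (WeakSubPoisson {x : Space | 1 < ‖x‖} (uPar (-1) χ f) fun x =>
          2 * ((E2 + (eu - eg) / 2 - E3 - attract l x) * uPar (-1) χ f x -
            K / ε * lam * ((|height x| / ‖x‖ ^ 3 + Real.exp (-(ε * ‖x‖))) * |amp χ f x| +
              |height x| / ‖x‖ ^ 3 * uWeight ε 0 χ f x + farSource ε χ f D Dχ x))) ∧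
        ∀ B : Space → ℝ, ∀ R : ℝ, 1 ≤ R → ContDiffOn ℝ 2 B {x : Space | R < ‖x‖} →
          (∀ x : Space, R < ‖x‖ → height x = 0 → 0 < B x) →
          WeakSubPoisson {x : Space | R < ‖x‖}
            (fun x => if 0 < height x then max (uPar 1 χ f x - B x) 0 else 0)
            fun x => if 0 < height x ∧ B x < uPar 1 χ f x then
              2 * ((E2 + (eu - eg) / 2 - E3 - attract l x) * uPar 1 χ f x -
                K / ε * lam * (1 / ‖x‖ ^ 2 * |amp χ f x| + |height x| / ‖x‖ ^ 3 * uWeight ε 0 χ f x +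
                  farSource ε χ f D Dχ x)) - lap B x
              else 0) lam₀

end Vale.Agent.P363.Inter
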