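import Vale.Agent.P363.Inter.Spec

/-!
P363, interacting side: the regularity of the density and the energy bounds which control the
defect `Δ√n / (2√n) - G₀` on average.
-/

noncomputable section

namespace Vale.Agent.P363.Inter

open MeasureTheory Filter Metric
open scoped BigOperators Topology

/-- The kinetic energy of the excited part of an up slice in all three electrons; `gd` is the
gradient of the amplitude. -/
def kinPerp (χ : Cfg 2 → ℝ) (f : Cfg 3 → ℝ) (D : Fin 3 → Fin 3 → Cfg 3 → ℝ)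
    (Dχ : Fin 2 → Fin 3 → Cfg 2 → ℝ) (gd : Fin 3 → Space → ℝ) (x : Space) : ℝ :=
  (∑ a, ∫ y, (slice 0 (D 0 a) x y - gd a x * χ y) ^ 2) + ionKin 0 0 χ f D Dχ x

/-- The kinetic energy of the down slice in all three electrons. -/
def kinDown (D : Fin 3 → Fin 3 → Cfg 3 → ℝ) (x : Space) : ℝ :=
  ∑ i, ∑ a, ∫ y, slice 2 (D i a) x y ^ 2

/-- Caccioppoli for the excited part and for the down slice. -/
def PerpEnergyStmt : Prop :=
  ∀ l g u Dg Du eg eu e', ZeroOrder l g u Dg Du eg eu e' → ∀ C : ℝ,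
    ∃ lam₀ K : ℝ, 0 < lam₀ ∧ ForStates l C g u Dg Du eg eu
      (fun lam _ f D _ χ Dχ _ _ _ _ => ∃ gd : Fin 3 → Space → ℝ,
        HasWeakGrad Set.univ (amp χ f) gd ∧ (∀ a, MemLp (gd a) 2) ∧
        ∀ η : Space → ℝ, IsBump Set.univ η →
          (∫ x, η x ^ 2 * kinPerp χ f D Dχ gd x ≤
            K * ∫ x, (η x ^ 2 + ∑ a, deriv3 a η x ^ 2) *
              (uPerp χ f x ^ 2 + lam ^ 2 / (1 + ‖x‖ ^ 2) ^ 2 * amp χ f x ^ 2)) ∧
          (∫ x, η x ^ 2 * kinDown D x ≤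
            K * ∫ x, (η x ^ 2 + ∑ a, deriv3 a η x ^ 2) * uDown f x ^ 2) ∧
          ∫ x, η x ^ 2 * ∑ a, gd a x ^ 2 ≤
            K * ∫ x, (η x ^ 2 + ∑ a, deriv3 a η x ^ 2) *
              (amp χ f x ^ 2 + lam ^ 2 / (1 + ‖x‖ ^ 2) ^ 2 * uPerp χ f x ^ 2)) lam₀

/-- The density: a Lipschitz representative `n` with weak gradient and Laplacian; off the nuclei
the Laplacian is bounded, far away both are bounded by the nearby mass; the defect is above the
far field potential up to `r⁻²`, and above it only by what the excited part costs. -/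
def DensityStmt : Prop :=
  ∀ l g u Dg Du eg eu e', ZeroOrder l g u Dg Du eg eu e' → ∀ C : ℝ,
    ∃ lam₀ K R₁ : ℝ, 0 < lam₀ ∧ 1 ≤ R₁ ∧ ForStates l C g u Dg Du eg eu
      (fun lam E3 f D E2 χ Dχ _ _ _ _ => ∃ (n : Space → ℝ) (gn gd : Fin 3 → Space → ℝ)
          (ln : Space → ℝ),
        Continuous n ∧ (∀ x, 0 ≤ n x ∧ n x ≤ K) ∧ n =ᵐ[volume] molDensity f ∧
        HasWeakGrad Set.univ n gn ∧ WeakPoisson Set.univ n ln ∧
        HasWeakGrad Set.univ (amp χ f) gd ∧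
        (∀ (i : Fin 3) (R : ℝ), MemLp (gn i) 6 (volume.restrict (ball 0 R))) ∧
        (∀ R : ℝ, MemLp ln 2 (volume.restrict (ball 0 R))) ∧
        (∀ K' : Set Space, IsCompact K' → Disjoint K' {nuc l, -nuc l} →
          ∃ B, ∀ᵐ x : Space, x ∈ K' → |ln x| ≤ B) ∧
        (∀ x, R₁ ≤ ‖x‖ → ∀ᵐ y : Space, y ∈ ball x 1 → |ln y| ≤ K * ∫ z in ball x 3, n z) ∧
        (∀ x y, R₁ ≤ ‖x‖ → dist x y ≤ 1 →
          |Real.sqrt (n x) - Real.sqrt (n y)| ≤ K * Real.sqrt (∫ z in ball x 3, n z) * dist x y) ∧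
        ∀ᵐ x : Space, R₁ ≤ ‖x‖ → 0 < n x →
          let base := E2 - E3 - attract l x + 2 * lam / ‖x‖
          let X := ln x / (4 * n x) - (∑ i, gn i x ^ 2) / (8 * n x ^ 2)
          base - K * lam / ‖x‖ ^ 2 ≤ X ∧
          (amp χ f x ≠ 0 →
            X ≤ base + K * lam / ‖x‖ ^ 2 + K * ((kinPerp χ f D Dχ gd x + kinDown D x +
              uPerp χ f x ^ 2 + uDown f x ^ 2) / amp χ f x ^ 2 +
              (uPerp χ f x ^ 2 + uDown f x ^ 2) * (∑ a, gd a x ^ 2) / amp χ f x ^ 4))) lam₀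

end Vale.Agent.P363.Inter
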