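import Vale.Agent.P363.KS.FormDefs
import Vale.Agent.P363.Exist.Spec

/-!
P363, interacting side: the vocabulary for the three-electron molecule with weak repulsion, its
two-electron ion and the slices of the wave function.
-/

noncomputable section

namespace Vale.Agent.P363.Inter

open MeasureTheory Filter
open scoped BigOperators Topology

variable {n : ℕ}

/-- Inner product on configuration space. -/
def ipN (f g : Cfg n → ℝ) : ℝ := ∫ x, f x * g x

/-- The norm on configuration space. -/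
def nrmN (f : Cfg n → ℝ) : ℝ := Real.sqrt (ipN f f)

/-- What the existence part hands over at coupling `lam`: the molecular ground state `f` and
three states of the ion: the ground state `χ`, the lowest odd singlet `χs` and the lowest
antisymmetric state `χt`; together with the spectral gap of the ion above `χ`. -/
structure MolState (l lam C : ℝ) (g u : Space → ℝ) (Dg Du : Fin 3 → Space → ℝ) (eg eu : ℝ)
    (E3 : ℝ) (f : Cfg 3 → ℝ) (D : Fin 3 → Fin 3 → Cfg 3 → ℝ)
    (E2 : ℝ) (χ : Cfg 2 → ℝ) (Dχ : Fin 2 → Fin 3 → Cfg 2 → ℝ)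
    (Es : ℝ) (χs : Cfg 2 → ℝ) (Ds : Fin 2 → Fin 3 → Cfg 2 → ℝ)
    (Et : ℝ) (χt : Cfg 2 → ℝ) (Dt : Fin 2 → Fin 3 → Cfg 2 → ℝ) : Prop where
  three : ThreeState l lam C g u Dg Du eg eu E3 f D
  ion : TwoState l lam C (fun _ => True) 1 1 (2 * eg) (prod2 g g) (prod2Grad g g Dg Dg) E2 χ Dχ
  singlet : TwoState l lam C SymmOdd 1 (-1) (eg + eu)
    (fun x => (prod2 g u x + prod2 u g x) / √2)
    (fun i a x => (prod2Grad g u Dg Du i a x + prod2Grad u g Du Dg i a x) / √2) Es χs Ds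
  triplet : TwoState l lam C Anti01 (-1) (-1) (eg + eu)
    (fun x => (prod2 g u x - prod2 u g x) / √2)
    (fun i a x => (prod2Grad g u Dg Du i a x - prod2Grad u g Du Dg i a x) / √2) Et χt Dt
  gap : ∀ ξ, IsRealTest ξ →
    E2 * ipN ξ ξ + (eu - eg) / 2 * (ipN ξ ξ - ipN χ ξ ^ 2) ≤ formQ l lam ξ

/-- A property of every such state, for all small couplings, with a uniform constant. -/
def ForStates (l C : ℝ) (g u : Space → ℝ) (Dg Du : Fin 3 → Space → ℝ) (eg eu : ℝ)
    (P : ℝ → ∀ (_E3 : ℝ) (_f : Cfg 3 → ℝ) (_D : Fin 3 → Fin 3 → Cfg 3 → ℝ)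
      (_E2 : ℝ) (_χ : Cfg 2 → ℝ) (_Dχ : Fin 2 → Fin 3 → Cfg 2 → ℝ)
      (_Es : ℝ) (_χs : Cfg 2 → ℝ) (_Et : ℝ) (_χt : Cfg 2 → ℝ), Prop) (lam₀ : ℝ) : Prop :=
  ∀ lam ∈ Set.Ioo 0 lam₀, ∀ E3 f D E2 χ Dχ Es χs Ds Et χt Dt,
    MolState l lam C g u Dg Du eg eu E3 f D E2 χ Dχ Es χs Ds Et χt Dt →
      P lam E3 f D E2 χ Dχ Es χs Et χt

/-- The slice of `f` at position `x` of electron `i`. -/
def slice (i : Fin 3) (f : Cfg 3 → ℝ) (x : Space) (y : Cfg 2) : ℝ := f (i.insertNth x y)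

/-- The density of the state: twice an up electron plus the down electron. -/
def molDensity (f : Cfg 3 → ℝ) (r : Space) : ℝ :=
  2 * ipN (slice 0 f r) (slice 0 f r) + ipN (slice 2 f r) (slice 2 f r)

/-- Repulsion between the electron at `x` and those of the ion. -/
def repel (x : Space) (y : Cfg 2) : ℝ := ∑ k, 1 / ‖x - y k‖

/-- The amplitude of an ion state in a slice. -/
def ampAt (i : Fin 3) (χ : Cfg 2 → ℝ) (f : Cfg 3 → ℝ) (x : Space) : ℝ := ipN χ (slice i f x)

/-- The amplitude of the ion ground state in the up slice. -/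
def amp (χ : Cfg 2 → ℝ) (f : Cfg 3 → ℝ) (x : Space) : ℝ := ampAt 0 χ f x

/-- The slice minus its ion ground-state part. -/
def perp (χ : Cfg 2 → ℝ) (f : Cfg 3 → ℝ) (x : Space) (y : Cfg 2) : ℝ :=
  slice 0 f x y - amp χ f x * χ y

/-- The part of a slice of parity `σ` under the mirror. -/
def parPart (σ : ℝ) (F : Cfg 2 → ℝ) (y : Cfg 2) : ℝ :=
  (F y + σ * F fun k => mirror (y k)) / 2

/-- A regularised exponential weight on the ion. -/
def weight (ε δ : ℝ) (y : Cfg 2) : ℝ :=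
  Real.exp (ε * ∑ k, Real.sqrt (1 + ‖y k‖ ^ 2) / (1 + δ * Real.sqrt (1 + ‖y k‖ ^ 2)))

/-- The norm of an up slice. -/
def uTot (f : Cfg 3 → ℝ) (x : Space) : ℝ := nrmN (slice 0 f x)

/-- The norm of the down slice. -/
def uDown (f : Cfg 3 → ℝ) (x : Space) : ℝ := nrmN (slice 2 f x)

/-- The norm of the excited part of an up slice. -/
def uPerp (χ : Cfg 2 → ℝ) (f : Cfg 3 → ℝ) (x : Space) : ℝ := nrmN (perp χ f x)

/-- The weighted norm of the excited part. -/
def uWeight (ε δ : ℝ) (χ : Cfg 2 → ℝ) (f : Cfg 3 → ℝ) (x : Space) : ℝ :=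
  nrmN fun y => weight ε δ y * perp χ f x y

/-- The norm of the excited part of parity `σ`. -/
def uPar (σ : ℝ) (χ : Cfg 2 → ℝ) (f : Cfg 3 → ℝ) (x : Space) : ℝ :=
  nrmN (parPart σ (perp χ f x))

end Vale.Agent.P363.Inter
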