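import Vale.Agent.P363.Inter.AssemblyBase

/-!
P363, interacting side: the defect is small on average away from the plane, by Caccioppoli and the
two-sided bound of the amplitude.
-/

noncomputable section

namespace Vale.Agent.P363.Inter

open MeasureTheory Metric Filter
open scoped BigOperators Topology

/-- What the average of the defect needs: bounds of the three norms outside a ball, Caccioppoli
for their gradients and the pointwise bound of the defect. -/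
structure DefectInput (a k R K c : ℝ) (am uP uD kP kD g2 S : Space → ℝ) : Prop where
  four_le : 4 ≤ R
  K_nonneg : 0 ≤ K
  c_pos : 0 < c
  meas : AEStronglyMeasurable S
  amp_lo : ∀ᵐ x : Space, R ≤ ‖x‖ → c * |height x| * tailG a k ‖x‖ ≤ |am x|
  amp_hi : ∀ᵐ x : Space, R ≤ ‖x‖ → |am x| ≤ K * |height x| * tailG a k ‖x‖
  perp : ∀ᵐ x : Space, R ≤ ‖x‖ →
    |uP x| ≤ K * (|height x| / ‖x‖ ^ 2 + (‖x‖ ^ 3)⁻¹) * tailG a k ‖x‖
  down : ∀ᵐ x : Space, R ≤ ‖x‖ →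
    |uD x| ≤ K * (|height x| / ‖x‖ ^ 2 + (‖x‖ ^ 3)⁻¹) * tailG a k ‖x‖
  kP_int : Integrable kP
  kD_int : Integrable kD
  g2_int : Integrable g2
  kP_nonneg : ∀ x, 0 ≤ kP x
  kD_nonneg : ∀ x, 0 ≤ kD x
  g2_nonneg : ∀ x, 0 ≤ g2 x
  cacc : ∀ η : Space → ℝ, IsBump Set.univ η →
    (∫ x, η x ^ 2 * kP x ≤ K * ∫ x, (η x ^ 2 + ∑ b, deriv3 b η x ^ 2) *
      (uP x ^ 2 + am x ^ 2 / (1 + ‖x‖ ^ 2) ^ 2)) ∧
    (∫ x, η x ^ 2 * kD x ≤ K * ∫ x, (η x ^ 2 + ∑ b, deriv3 b η x ^ 2) * uD x ^ 2) ∧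
    ∫ x, η x ^ 2 * g2 x ≤ K * ∫ x, (η x ^ 2 + ∑ b, deriv3 b η x ^ 2) *
      (am x ^ 2 + uP x ^ 2 / (1 + ‖x‖ ^ 2) ^ 2)
  pointwise : ∀ᵐ x : Space, R ≤ ‖x‖ → am x ≠ 0 →
    |S x| ≤ K / ‖x‖ ^ 2 + K * ((kP x + kD x + uP x ^ 2 + uD x ^ 2) / am x ^ 2 +
      (uP x ^ 2 + uD x ^ 2) * g2 x / am x ^ 4)

/-- Caccioppoli turns a bound on the double ball into a bound of the integral on the ball. -/
lemma cacc_ball {B : ℝ} (hB : ∀ (x : Space) (ρ : ℝ), 0 < ρ →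
    ∃ η : Space → ℝ, IsBump Set.univ η ∧ (∀ y, η y ∈ Set.Icc (0 : ℝ) 1) ∧
      (∀ y ∈ ball x ρ, η y = 1) ∧
      (∀ y, y ∉ closedBall x (2 * ρ) → η y = 0 ∧ ∀ a, deriv3 a η y = 0) ∧
      ∀ y a, |deriv3 a η y| ≤ B / ρ) {K M ρ : ℝ} (hK : 0 ≤ K) (hρ : 0 < ρ) (hρ1 : ρ ≤ 1)
    {x : Space} {k w : Space → ℝ} (hk : Integrable k) (hk0 : ∀ y, 0 ≤ k y) (hw0 : ∀ y, 0 ≤ w y)
    (hwM : ∀ᵐ y : Space, y ∈ closedBall x (2 * ρ) → w y ≤ M)
    (h : ∀ η : Space → ℝ, IsBump Set.univ η →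
      ∫ y, η y ^ 2 * k y ≤ K * ∫ y, (η y ^ 2 + ∑ b, deriv3 b η y ^ 2) * w y) :
    ∫ y in ball x ρ, k y ≤ 8 * K * (1 + 3 * B ^ 2) * volume.real (ball (0 : Space) 1) * M * ρ := by
  obtain ⟨η, hη, h01, h1, h0, hd⟩ := hB x ρ hρ
  have hηc : Continuous η := hη.smooth.continuous
  have hint : Integrable fun y => η y ^ 2 * k y := by
    refine hk.bdd_mul (c := 1) (hηc.pow 2).aestronglyMeasurable (Eventually.of_forall fun y => ?_)
    rw [Real.norm_eq_abs, abs_of_nonneg (sq_nonneg _)]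
    exact pow_le_one₀ (h01 y).1 (h01 y).2
  have hleft : ∫ y in ball x ρ, k y ≤ ∫ y, η y ^ 2 * k y := by
    calc ∫ y in ball x ρ, k y = ∫ y in ball x ρ, η y ^ 2 * k y :=
          setIntegral_congr_fun measurableSet_ball fun y hy => by simp [h1 y hy]
      _ ≤ _ := setIntegral_le_integral hint
          (Eventually.of_forall fun y => mul_nonneg (sq_nonneg _) (hk0 y))
  refine hleft.trans ((h η hη).trans ?_)
  set D := (1 + 3 * B ^ 2) / ρ ^ 2 with hD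
  have hdom : ∀ᵐ y : Space, (η y ^ 2 + ∑ b, deriv3 b η y ^ 2) * w y ≤
      (closedBall x (2 * ρ)).indicator (fun _ => D * M) y := by
    filter_upwards [hwM] with y hy
    by_cases hm : y ∈ closedBall x (2 * ρ)
    · rw [Set.indicator_of_mem hm]
      refine mul_le_mul ?_ (hy hm) (hw0 y) (by rw [hD]; positivity)
      rw [hD, add_div]
      refine add_le_add ((pow_le_one₀ (h01 y).1 (h01 y).2).trans ?_) ?_
      · rw [le_div_iff₀ (by positivity), one_mul]; exact pow_le_one₀ hρ.le hρ1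
      · refine (Finset.sum_le_sum fun b _ =>
          (sq_le_sq' (abs_le.1 (hd y b)).1 (abs_le.1 (hd y b)).2)).trans_eq ?_
        simp [div_pow]; ring
    · rw [Set.indicator_of_notMem hm]
      simp [(h0 y hm).1, (h0 y hm).2]
  have h2 : (∫ y, (η y ^ 2 + ∑ b, deriv3 b η y ^ 2) * w y) ≤
      ∫ y, (closedBall x (2 * ρ)).indicator (fun _ => D * M) y :=
    integral_mono_of_nonneg
      (Eventually.of_forall fun y => mul_nonneg (add_nonneg (sq_nonneg _)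
        (Finset.sum_nonneg fun b _ => sq_nonneg _)) (hw0 y))
      ((integrableOn_const (C := D * M) (isCompact_closedBall x (2 * ρ)).measure_lt_top.ne
        ).integrable_indicator measurableSet_closedBall) hdom
  rw [integral_indicator measurableSet_closedBall, setIntegral_const, smul_eq_mul,
    volume_real_closedBall x (by positivity)] at h2
  refine (mul_le_mul_of_nonneg_left h2 hK).trans_eq ?_
  rw [hD]; field_simp; ring

/-- Geometry on the double ball. -/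
lemma geo_ball {a k P R ρ : ℝ}
    (hnear : ∀ r s : ℝ, 4 ≤ r → |s - r| ≤ 3 →
      tailG a k s ≤ P * tailG a k r ∧ tailG a k r ≤ P * tailG a k s)
    (hR : 4 ≤ R) {x y : Space} (hx : R + 1 ≤ ‖x‖) (hρz : 4 * ρ ≤ |height x|) (hρ1 : 4 * ρ ≤ 1)
    (hy : y ∈ closedBall x (2 * ρ)) :
    R ≤ ‖y‖ ∧ |height x| / 2 ≤ |height y| ∧ |height y| ≤ 2 * |height x| ∧
      tailG a k ‖y‖ ≤ P * tailG a k ‖x‖ ∧ tailG a k ‖x‖ ≤ P * tailG a k ‖y‖ ∧
      0 < tailG a k ‖y‖ ∧ ‖x‖ / 2 ≤ ‖y‖ ∧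
      |height y| / ‖y‖ ^ 2 + (‖y‖ ^ 3)⁻¹ ≤ 8 * (|height x| / ‖x‖ ^ 2 + (‖x‖ ^ 3)⁻¹) := by
  have hd := mem_closedBall.1 hy
  obtain ⟨n1, n2⟩ := abs_le.1 (norm_lip y x)
  obtain ⟨d1, d2⟩ := abs_le.1 ((abs_abs_sub_abs_le_abs_sub _ _).trans (height_lip y x))
  have hx0 : 0 < ‖x‖ := by linarith
  have hyr : ‖x‖ / 2 ≤ ‖y‖ := by linarith
  have hy0 : 0 < ‖y‖ := by linarith
  obtain ⟨g1, g2⟩ := hnear ‖x‖ ‖y‖ (by linarith) (abs_le.2 ⟨by linarith, by linarith⟩)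
  refine ⟨by linarith, by linarith, by linarith, g1, g2, tailG_pos a k hy0, hyr, ?_⟩
  rw [mul_add]
  refine add_le_add ((div_le_div₀ (mul_nonneg zero_le_two (abs_nonneg _))
    (show |height y| ≤ 2 * |height x| by linarith) (by positivity)
    (pow_le_pow_left₀ (by linarith) hyr 2)).trans_eq (by ring)) ?_
  refine (inv_anti₀ (by positivity) (pow_le_pow_left₀ (by linarith) hyr 3)).trans_eq ?_
  ring

/-- The three norms on the double ball. -/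
structure BallBounds (M m : ℝ) (x : Space) (ρ G : ℝ) (am uP uD : Space → ℝ) : Prop where
  bounds : ∀ᵐ y : Space, y ∈ closedBall x (2 * ρ) →
    uP y ^ 2 ≤ M * ((|height x| / ‖x‖ ^ 2 + (‖x‖ ^ 3)⁻¹) * G) ^ 2 ∧
    uD y ^ 2 ≤ M * ((|height x| / ‖x‖ ^ 2 + (‖x‖ ^ 3)⁻¹) * G) ^ 2 ∧
    am y ^ 2 ≤ M * (|height x| * G) ^ 2 ∧
    am y ^ 2 / (1 + ‖y‖ ^ 2) ^ 2 ≤ M * ((|height x| / ‖x‖ ^ 2 + (‖x‖ ^ 3)⁻¹) * G) ^ 2 ∧
    m * (|height x| * G) ≤ |am y|

lemma sq_le_of_abs {v B : ℝ} (h : |v| ≤ B) : v ^ 2 ≤ B ^ 2 := by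
  rw [← sq_abs]; exact pow_le_pow_left₀ (abs_nonneg v) h 2

lemma ball_bounds {a k R K c P ρ : ℝ} {am uP uD kP kD g2 S : Space → ℝ}
    (h : DefectInput a k R K c am uP uD kP kD g2 S) (hP : 0 < P)
    (hnear : ∀ r s : ℝ, 4 ≤ r → |s - r| ≤ 3 →
      tailG a k s ≤ P * tailG a k r ∧ tailG a k r ≤ P * tailG a k s)
    {x : Space} (hx : R + 1 ≤ ‖x‖) (hρz : 4 * ρ ≤ |height x|) (hρ1 : 4 * ρ ≤ 1) :
    BallBounds ((8 * K * P) ^ 2) (c / (2 * P)) x ρ (tailG a k ‖x‖) am uP uD := by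
  have hK := h.K_nonneg
  have hc := h.c_pos
  constructor
  filter_upwards [h.amp_lo, h.amp_hi, h.perp, h.down] with y h1 h2 h3 h4 hy
  obtain ⟨hR, hzl, hzu, gu, gl, gp, hyr, hwy⟩ := geo_ball hnear h.four_le hx hρz hρ1 hy
  have hx0 : 0 < ‖x‖ := by linarith [h.four_le]
  have hG := tailG_pos a k hx0
  set z := |height x| with hz
  set w := z / ‖x‖ ^ 2 + (‖x‖ ^ 3)⁻¹ with hw
  set G := tailG a k ‖x‖ with hGdef
  have hz0 : 0 ≤ z := abs_nonneg _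
  have hu : ∀ v : ℝ, |v| ≤ K * (|height y| / ‖y‖ ^ 2 + (‖y‖ ^ 3)⁻¹) * tailG a k ‖y‖ →
      v ^ 2 ≤ (8 * K * P) ^ 2 * (w * G) ^ 2 := by
    intro v hv
    rw [← mul_pow]
    exact sq_le_of_abs (hv.trans ((mul_le_mul (mul_le_mul_of_nonneg_left hwy hK) gu gp.le
      (by positivity)).trans_eq (by ring)))
  have hA3 : am y ^ 2 ≤ (2 * K * P * (z * G)) ^ 2 :=
    sq_le_of_abs ((h2 hR).trans ((mul_le_mul (mul_le_mul_of_nonneg_left hzu hK) gu gp.le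
      (by positivity)).trans_eq (by ring)))
  refine ⟨hu _ (h3 hR), hu _ (h4 hR), hA3.trans ?_, ?_, ?_⟩
  · rw [← mul_pow]
    refine pow_le_pow_left₀ (by positivity) ?_ 2
    exact mul_le_mul_of_nonneg_right (by nlinarith) (by positivity)
  · have h5 : z / (1 + ‖y‖ ^ 2) ≤ 4 * w := by
      refine le_trans ?_ (mul_le_mul_of_nonneg_left
        (le_add_of_nonneg_right (by positivity) : z / ‖x‖ ^ 2 ≤ w) zero_le_four)
      refine (div_le_div_of_nonneg_left hz0 (by positivity)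
        (show ‖x‖ ^ 2 / 4 ≤ 1 + ‖y‖ ^ 2 by nlinarith)).trans_eq ?_
      ring
    calc am y ^ 2 / (1 + ‖y‖ ^ 2) ^ 2 ≤ (2 * K * P * (z * G)) ^ 2 / (1 + ‖y‖ ^ 2) ^ 2 :=
          div_le_div_of_nonneg_right hA3 (by positivity)
      _ = (2 * K * P * (z / (1 + ‖y‖ ^ 2)) * G) ^ 2 := by field_simp
      _ ≤ (2 * K * P * (4 * w) * G) ^ 2 := by gcongr
      _ = _ := by ring
  · refine le_trans ?_ (h1 hR)
    calc c / (2 * P) * (z * G) = c * (z / 2) * (G / P) := by ring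
      _ ≤ c * |height y| * tailG a k ‖y‖ :=
          mul_le_mul (mul_le_mul_of_nonneg_left hzl hc.le)
            ((div_le_iff₀ hP).2 (by linarith)) (by positivity) (by positivity)

/-- The dominating function in terms of lower bound `B` and upper bound `U`. -/
lemma defect_dom {K B U k₁ k₂ u₁ u₂ g am : ℝ} (hK : 0 ≤ K) (hB : 0 < B) (hk₁ : 0 ≤ k₁)
    (hk₂ : 0 ≤ k₂) (hg : 0 ≤ g) (hu : u₁ ^ 2 + u₂ ^ 2 ≤ U) (ha : B ≤ |am|) :
    K * ((k₁ + k₂ + u₁ ^ 2 + u₂ ^ 2) / am ^ 2 + (u₁ ^ 2 + u₂ ^ 2) * g / am ^ 4) ≤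
      K / B ^ 2 * U + K / B ^ 2 * (k₁ + k₂) + K * U / B ^ 4 * g := by
  have hs2 : B ^ 2 ≤ am ^ 2 := by rw [← sq_abs am]; exact pow_le_pow_left₀ hB.le ha 2
  have hs4 : B ^ 4 ≤ am ^ 4 := by
    have := pow_le_pow_left₀ (sq_nonneg B) hs2 2
    rw [← pow_mul, ← pow_mul] at this; exact this
  have hU : 0 ≤ U := le_trans (by positivity) hu
  have t2 : (k₁ + k₂ + u₁ ^ 2 + u₂ ^ 2) / am ^ 2 ≤ (k₁ + k₂ + U) / B ^ 2 :=
    div_le_div₀ (by positivity) (by linarith) (by positivity) hs2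
  have t3 : (u₁ ^ 2 + u₂ ^ 2) * g / am ^ 4 ≤ U * g / B ^ 4 :=
    div_le_div₀ (mul_nonneg hU hg) (mul_le_mul_of_nonneg_right hu hg) (by positivity) hs4
  refine (mul_le_mul_of_nonneg_left (add_le_add t2 t3) hK).trans_eq ?_
  ring

/-- The relative size of the excited part, averaged. -/
lemma rate_bound {r z : ℝ} (hr : 2 ≤ r) (hz : 0 < z) :
    min z 1 / 4 * ((z / r ^ 2 + (r ^ 3)⁻¹) / z) ^ 2 ≤
      64 * (min z 1 / 4) ^ 3 * ((r ^ 2)⁻¹ + (r ^ 6 * z ^ 4)⁻¹) := by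
  obtain ⟨s, hs, rfl⟩ : ∃ s : ℝ, 0 < s ∧ r = s⁻¹ :=
    ⟨r⁻¹, inv_pos.2 (by linarith), (inv_inv r).symm⟩
  have hs2 : s ≤ 1 / 2 := by
    rw [← one_div, le_div_iff₀ hs] at hr
    linarith
  simp only [inv_pow, inv_inv, div_inv_eq_mul, mul_inv]
  have h1 : ((z * s ^ 2 + s ^ 3) / z) ^ 2 ≤ 2 * (s ^ 4 + s ^ 6 / z ^ 2) := by
    rw [show (z * s ^ 2 + s ^ 3) / z = s ^ 2 + s ^ 3 / z by field_simp,
      show s ^ 6 / z ^ 2 = (s ^ 3 / z) ^ 2 by ring]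
    nlinarith [sq_nonneg (s ^ 2 - s ^ 3 / z)]
  have hq : 0 ≤ s ^ 6 * (z ^ 4)⁻¹ := by positivity
  rcases le_total z 1 with hz1 | hz1
  · rw [min_eq_left hz1]
    have h2 : s ^ 4 / z ^ 2 ≤ (s ^ 2 + s ^ 6 * (z ^ 4)⁻¹) / 2 := by
      have e : (s - s ^ 3 / z ^ 2) ^ 2 = s ^ 2 - 2 * (s ^ 4 / z ^ 2) + s ^ 6 * (z ^ 4)⁻¹ := by
        field_simp; ring
      linarith [sq_nonneg (s - s ^ 3 / z ^ 2)]
    refine (mul_le_mul_of_nonneg_left h1 (by positivity)).trans ?_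
    calc z / 4 * (2 * (s ^ 4 + s ^ 6 / z ^ 2))
        = 32 * (z / 4) ^ 3 * (s ^ 4 / z ^ 2 + s ^ 6 * (z ^ 4)⁻¹) := by field_simp; ring
      _ ≤ 32 * (z / 4) ^ 3 * (2 * (s ^ 2 + s ^ 6 * (z ^ 4)⁻¹)) := by
          refine mul_le_mul_of_nonneg_left ?_ (by positivity)
          nlinarith [sq_nonneg s]
      _ = _ := by ring
  · rw [min_eq_right hz1]
    have h2 : s ^ 4 ≤ s ^ 2 := pow_le_pow_of_le_one hs.le (by linarith) (by norm_num)
    have h3 : s ^ 6 / z ^ 2 ≤ s ^ 2 := (div_le_self (by positivity) (one_le_pow₀ hz1)).trans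
      (pow_le_pow_of_le_one hs.le (by linarith) (by norm_num))
    nlinarith

/-- Gathering the three terms. -/
lemma total_bound {K M W V m z G ρ w i₁ i₂ i₃ r : ℝ} (hK : 0 ≤ K) (hM : 0 ≤ M) (hV : 0 ≤ V)
    (hm : 0 < m) (hz : 0 < z) (hG : 0 < G) (hρ : 0 < ρ) (hρ1 : ρ ≤ 1)
    (h₁ : i₁ ≤ W * (2 * (M * (w * G) ^ 2)) * ρ) (h₂ : i₂ ≤ W * (M * (w * G) ^ 2) * ρ)
    (h₃ : i₃ ≤ W * (5 * (M * (z * G) ^ 2)) * ρ) :
    (4 * K / r ^ 2 + K / (m * (z * G)) ^ 2 * (2 * (M * (w * G) ^ 2))) * (ρ ^ 3 * V) +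
        K / (m * (z * G)) ^ 2 * (i₁ + i₂) +
        K * (2 * (M * (w * G) ^ 2)) / (m * (z * G)) ^ 4 * i₃ ≤
      4 * K * V * ρ ^ 3 * (r ^ 2)⁻¹ +
        (K * (2 * M * V + 3 * W * M) / m ^ 2 + K * (2 * M) * (5 * W * M) / m ^ 4) *
          (ρ * (w / z) ^ 2) := by
  have hρ3 : ρ ^ 3 ≤ ρ := pow_le_of_le_one hρ.le hρ1 (by norm_num)
  have a1 : K / (m * (z * G)) ^ 2 * (2 * (M * (w * G) ^ 2)) * (ρ ^ 3 * V) ≤
      K / (m * (z * G)) ^ 2 * (2 * (M * (w * G) ^ 2)) * (ρ * V) := by gcongr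
  have a2 := mul_le_mul_of_nonneg_left (add_le_add h₁ h₂)
    (show 0 ≤ K / (m * (z * G)) ^ 2 by positivity)
  have a3 := mul_le_mul_of_nonneg_left h₃
    (show 0 ≤ K * (2 * (M * (w * G) ^ 2)) / (m * (z * G)) ^ 4 by positivity)
  have e : K / (m * (z * G)) ^ 2 * (2 * (M * (w * G) ^ 2)) * (ρ * V) +
      K / (m * (z * G)) ^ 2 * (W * (2 * (M * (w * G) ^ 2)) * ρ + W * (M * (w * G) ^ 2) * ρ) +
      K * (2 * (M * (w * G) ^ 2)) / (m * (z * G)) ^ 4 * (W * (5 * (M * (z * G) ^ 2)) * ρ) =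
      (K * (2 * M * V + 3 * W * M) / m ^ 2 + K * (2 * M) * (5 * W * M) / m ^ 4) *
        (ρ * (w / z) ^ 2) := by
    field_simp; ring
  have e0 : (4 * K / r ^ 2 + K / (m * (z * G)) ^ 2 * (2 * (M * (w * G) ^ 2))) * (ρ ^ 3 * V) =
      4 * K * V * ρ ^ 3 * (r ^ 2)⁻¹ +
        K / (m * (z * G)) ^ 2 * (2 * (M * (w * G) ^ 2)) * (ρ ^ 3 * V) := by ring
  linarith

/-- The mean of the absolute defect over balls away from the plane. -/
theorem defect_avg_of {a k R K c : ℝ} {am uP uD kP kD g2 S : Space → ℝ}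
    (h : DefectInput a k R K c am uP uD kP kD g2 S) :
    ∃ C : ℝ, 0 ≤ C ∧ ∀ x : Space, R + 1 ≤ ‖x‖ → ‖x‖⁻¹ ≤ |height x| →
      IntegrableOn S (ball x (min |height x| 1 / 4)) ∧
        ∫ y in ball x (min |height x| 1 / 4), |S y| ≤
          C * (min |height x| 1 / 4) ^ 3 * ((‖x‖ ^ 2)⁻¹ + (‖x‖ ^ 6 * |height x| ^ 4)⁻¹) := by
  obtain ⟨B, -, hB⟩ := exists_scaled_bump
  obtain ⟨P, hP, hnear⟩ := tailG_near a k
  have hK := h.K_nonneg
  have hc := h.c_pos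
  set V := volume.real (ball (0 : Space) 1) with hV
  have hV0 : 0 ≤ V := measureReal_nonneg
  set W := 8 * K * (1 + 3 * B ^ 2) * V with hW
  have hW0 : 0 ≤ W := by rw [hW]; positivity
  set m := c / (2 * P) with hmdef
  have hm : 0 < m := by rw [hmdef]; positivity
  set M := (8 * K * P) ^ 2 with hMdef
  have hM0 : 0 ≤ M := sq_nonneg _
  set A := K * (2 * M * V + 3 * W * M) / m ^ 2 + K * (2 * M) * (5 * W * M) / m ^ 4 with hA
  have hA0 : 0 ≤ A := by rw [hA]; positivity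
  refine ⟨4 * K * V + 64 * A, by positivity, fun x hx hxz => ?_⟩
  set z := |height x| with hz
  set r := ‖x‖ with hr
  set G := tailG a k r with hGdef
  set ρ := min z 1 / 4 with hρdef
  have hR4 := h.four_le
  have hr0 : 0 < r := by linarith
  have hz0 : 0 < z := lt_of_lt_of_le (inv_pos.2 hr0) hxz
  have hG : 0 < G := tailG_pos a k hr0
  have hρ : 0 < ρ := by rw [hρdef]; exact div_pos (lt_min hz0 one_pos) (by norm_num)
  have hρz : 4 * ρ ≤ z := by rw [hρdef]; linarith [min_le_left z 1]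
  have hρ1 : 4 * ρ ≤ 1 := by rw [hρdef]; linarith [min_le_right z 1]
  set w := z / r ^ 2 + (r ^ 3)⁻¹ with hw
  have hw0 : 0 < w := by rw [hw]; positivity
  have hwz : w ≤ 2 * z := by
    have e1 : z / r ^ 2 ≤ z := div_le_self hz0.le (one_le_pow₀ (by linarith))
    have e2 : (r ^ 3)⁻¹ ≤ r⁻¹ := inv_anti₀ hr0 (le_self_pow₀ (by linarith) (by norm_num))
    rw [hw]; linarith
  have hb := (ball_bounds h hP hnear hx hρz hρ1).bounds
  have hρ' : ρ ≤ 1 := by linarith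
  have iP : ∫ y in ball x ρ, kP y ≤ W * (2 * (M * (w * G) ^ 2)) * ρ := by
    refine cacc_ball hB hK hρ hρ' h.kP_int h.kP_nonneg (fun y => by positivity) ?_
      fun η hη => (h.cacc η hη).1
    filter_upwards [hb] with y hy hym
    obtain ⟨e1, -, -, e4, -⟩ := hy hym
    exact (add_le_add e1 e4).trans_eq (two_mul _).symm
  have iD : ∫ y in ball x ρ, kD y ≤ W * (M * (w * G) ^ 2) * ρ := by
    refine cacc_ball hB hK hρ hρ' h.kD_int h.kD_nonneg (fun y => by positivity) ?_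
      fun η hη => (h.cacc η hη).2.1
    filter_upwards [hb] with y hy hym using (hy hym).2.1
  have iG : ∫ y in ball x ρ, g2 y ≤ W * (5 * (M * (z * G) ^ 2)) * ρ := by
    refine cacc_ball hB hK hρ hρ' h.g2_int h.g2_nonneg (fun y => by positivity) ?_
      fun η hη => (h.cacc η hη).2.2
    filter_upwards [hb] with y hy hym
    obtain ⟨e1, -, e3, -, -⟩ := hy hym
    have e5 : uP y ^ 2 / (1 + ‖y‖ ^ 2) ^ 2 ≤ uP y ^ 2 :=
      div_le_self (sq_nonneg _) (one_le_pow₀ (by nlinarith [sq_nonneg ‖y‖]))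
    have e6 : (w * G) ^ 2 ≤ (2 * z * G) ^ 2 := by gcongr
    calc am y ^ 2 + uP y ^ 2 / (1 + ‖y‖ ^ 2) ^ 2
        ≤ M * (z * G) ^ 2 + M * (2 * z * G) ^ 2 :=
          add_le_add e3 ((e5.trans e1).trans (mul_le_mul_of_nonneg_left e6 hM0))
      _ = 5 * (M * (z * G) ^ 2) := by ring
  set U := 2 * (M * (w * G) ^ 2) with hU
  set Φ : Space → ℝ := fun y => (4 * K / r ^ 2 + K / (m * (z * G)) ^ 2 * U) +
    K / (m * (z * G)) ^ 2 * (kP y + kD y) + K * U / (m * (z * G)) ^ 4 * g2 y with hΦ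
  have i2 : Integrable (fun _ : Space => 4 * K / r ^ 2 + K / (m * (z * G)) ^ 2 * U)
      (volume.restrict (ball x ρ)) := integrableOn_const measure_ball_lt_top.ne
  have i1 : Integrable (fun y => K / (m * (z * G)) ^ 2 * (kP y + kD y))
      (volume.restrict (ball x ρ)) := (h.kP_int.add h.kD_int).integrableOn.const_mul _
  have i3 : Integrable (fun y => K * U / (m * (z * G)) ^ 4 * g2 y)
      (volume.restrict (ball x ρ)) := h.g2_int.integrableOn.const_mul _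
  have hΦi : IntegrableOn Φ (ball x ρ) := (i2.add i1).add i3
  have hdom : ∀ᵐ y : Space, y ∈ ball x ρ → |S y| ≤ Φ y := by
    filter_upwards [hb, h.pointwise] with y hy hp hym
    have hyc : y ∈ closedBall x (2 * ρ) :=
      mem_closedBall.2 ((mem_ball.1 hym).le.trans (by linarith))
    obtain ⟨hR, -, -, -, -, -, hyr, -⟩ := geo_ball hnear hR4 hx hρz hρ1 hyc
    obtain ⟨e1, e2, -, -, e5⟩ := hy hyc
    have hmz : 0 < m * (z * G) := by positivity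
    have ha0 : am y ≠ 0 := fun h0 => by rw [h0, abs_zero] at e5; linarith
    have t1 : K / ‖y‖ ^ 2 ≤ 4 * K / r ^ 2 :=
      (div_le_div_of_nonneg_left hK (by positivity)
        (pow_le_pow_left₀ (by positivity) hyr 2)).trans_eq (by ring)
    have t2 := defect_dom hK hmz (h.kP_nonneg y) (h.kD_nonneg y) (h.g2_nonneg y)
      (show uP y ^ 2 + uD y ^ 2 ≤ U from (add_le_add e1 e2).trans_eq (two_mul _).symm) e5
    exact (hp hR ha0).trans ((add_le_add t1 t2).trans_eq (by simp only [hΦ]; ring))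
  have hdom' : ∀ᵐ y ∂(volume.restrict (ball x ρ)), ‖S y‖ ≤ Φ y := by
    rw [ae_restrict_iff' measurableSet_ball]
    filter_upwards [hdom] with y hy
    rwa [Real.norm_eq_abs]
  have hSi : IntegrableOn S (ball x ρ) := hΦi.mono' h.meas.restrict hdom'
  refine ⟨hSi, (integral_mono_ae hSi.abs hΦi
    (hdom'.mono fun y hy => by rwa [Real.norm_eq_abs] at hy)).trans ?_⟩
  simp only [hΦ]
  have i12 : Integrable (fun y => 4 * K / r ^ 2 + K / (m * (z * G)) ^ 2 * U +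
      K / (m * (z * G)) ^ 2 * (kP y + kD y)) (volume.restrict (ball x ρ)) := i2.add i1
  rw [integral_add i12 i3,
    integral_add i2 i1, setIntegral_const, integral_const_mul, integral_const_mul,
    integral_add h.kP_int.integrableOn h.kD_int.integrableOn, smul_eq_mul, volume_real_ball x hρ,
    ← hV, mul_comm (ρ ^ 3 * V)]
  refine (total_bound hK hM0 hV0 hm hz0 hG hρ hρ' iP iD iG).trans ?_
  have k1 : A * (ρ * (w / z) ^ 2) ≤ A * (64 * ρ ^ 3 * ((r ^ 2)⁻¹ + (r ^ 6 * z ^ 4)⁻¹)) :=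
    mul_le_mul_of_nonneg_left (rate_bound (by linarith) hz0) hA0
  have q : 0 ≤ 4 * K * V * ρ ^ 3 * (r ^ 6 * z ^ 4)⁻¹ := by positivity
  rw [← hA]
  refine (add_le_add le_rfl k1).trans ?_
  nlinarith only [q]

end Vale.Agent.P363.Inter
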