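import Vale.Agent.P363.Inter.AssemblyFields
import Vale.Agent.P363.Inter.AssemblyDefect
import Vale.Agent.P363.Main

/-!
P363, interacting side: the nodal-plane structure of the density from the bounds of the slices,
the regularity of the density and the energy estimates.
-/

noncomputable section

namespace Vale.Agent.P363.Inter

open MeasureTheory Metric Filter
open scoped BigOperators Topology

/-- Monotonicity of the right hand side of a Caccioppoli inequality. -/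
lemma cacc_rhs {L K K' : ℝ} {η v v' : Space → ℝ} (hη : IsBump Set.univ η) (hK : |K| ≤ K')
    (hv : ∀ x, 0 ≤ v x) (hv' : Integrable v') (hle : ∀ x, v x ≤ v' x)
    (h : L ≤ K * ∫ x, (η x ^ 2 + ∑ b, deriv3 b η x ^ 2) * v x) :
    L ≤ K' * ∫ x, (η x ^ 2 + ∑ b, deriv3 b η x ^ 2) * v' x := by
  set w : Space → ℝ := fun x => η x ^ 2 + ∑ b, deriv3 b η x ^ 2 with hw
  have hw0 : ∀ x, 0 ≤ w x := fun x =>
    add_nonneg (sq_nonneg _) (Finset.sum_nonneg fun b _ => sq_nonneg _)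
  have hwc : Continuous w := by
    refine (hη.smooth.continuous.pow 2).add (continuous_finsetSum _ fun b _ => ?_)
    exact ((hη.smooth.continuous_fderiv (by simp)).clm_apply continuous_const).pow 2
  obtain ⟨B, hB⟩ := hη.compact.exists_bound_of_continuousOn hwc.continuousOn
  have hbd : ∀ x, ‖w x‖ ≤ max B 0 := fun x => by
    by_cases hx : x ∈ tsupport η
    · exact (hB x hx).trans (le_max_left _ _)
    · simp [hw, image_eq_zero_of_notMem_tsupport hx, deriv3, fderiv_of_notMem_tsupport ℝ hx]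
  have hi : Integrable fun x => w x * v' x :=
    hv'.bdd_mul (c := max B 0) hwc.aestronglyMeasurable (Eventually.of_forall hbd)
  have h1 : ∫ x, w x * v x ≤ ∫ x, w x * v' x :=
    integral_mono_of_nonneg (Eventually.of_forall fun x => mul_nonneg (hw0 x) (hv x)) hi
      (Eventually.of_forall fun x => mul_le_mul_of_nonneg_left (hle x) (hw0 x))
  have h2 : 0 ≤ ∫ x, w x * v x := integral_nonneg fun x => mul_nonneg (hw0 x) (hv x)
  exact h.trans ((mul_le_mul_of_nonneg_right ((le_abs_self K).trans hK) h2).trans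
    (mul_le_mul_of_nonneg_left h1 ((abs_nonneg K).trans hK)))

/-- The facts about one state which the assembly uses. -/
structure Facts (l lam E3 E2 a R c K δ : ℝ) (f : Cfg 3 → ℝ) (D : Fin 3 → Fin 3 → Cfg 3 → ℝ)
    (χ : Cfg 2 → ℝ) (Dχ : Fin 2 → Fin 3 → Cfg 2 → ℝ) (n : Space → ℝ)
    (gn gd : Fin 3 → Space → ℝ) (ln : Space → ℝ) : Prop where
  a_pos : 0 < a
  sq_rate : a ^ 2 / 2 = E2 - E3
  lam_nonneg : 0 ≤ lam
  lam_le : lam ≤ 1
  four_le : 4 ≤ R
  two_l : 2 * |l| ≤ R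
  c_pos : 0 < c
  K_nonneg : 0 ≤ K
  δ_pos : 0 < δ
  f_mem : MemLp f 2
  f_one : ∫ z, f z ^ 2 = 1
  D_mem : ∀ i b, MemLp (D i b) 2
  χ_mem : MemLp χ 2
  χ_one : ∫ y, χ y ^ 2 = 1
  Dχ_mem : ∀ i b, MemLp (Dχ i b) 2
  gd_mem : ∀ b, MemLp (gd b) 2
  axis : ∀ Q : Space ≃ₗᵢ[ℝ] Space, Q (unit3 2) = unit3 2 → ∀ᵐ z, f (fun j => Q (z j)) = f z
  odd : ∀ᵐ z, f (fun j => mirror (z j)) = -f z
  amp_bd : ∀ᵐ x : Space, R ≤ ‖x‖ → c * |height x| * tailG a (2 - 2 * lam) ‖x‖ ≤ |amp χ f x| ∧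
    |amp χ f x| ≤ K * |height x| * tailG a (2 - 2 * lam) ‖x‖
  perp_bd : ∀ᵐ x : Space, R ≤ ‖x‖ → uPerp χ f x ≤
    K * (|height x| / ‖x‖ ^ 2 + (‖x‖ ^ 3)⁻¹) * tailG a (2 - 2 * lam) ‖x‖
  down_bd : ∀ᵐ x : Space, R ≤ ‖x‖ → uDown f x ≤ K * Real.exp (-((a + δ) * ‖x‖))
  plane_bd : ∀ᵐ x : Space, R ≤ ‖x‖ →
    c * (‖x‖ ^ 3)⁻¹ * tailG a (2 - 2 * lam) ‖x‖ ≤ uTot f x
  down_lo : ∃ c' : ℝ, 0 < c' ∧ ∀ᵐ x : Space, ‖x‖ ≤ R + 2 → c' ≤ uDown f x
  n_cont : Continuous n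
  n_bd : ∀ x, 0 ≤ n x ∧ n x ≤ K
  n_ae : n =ᵐ[volume] molDensity f
  n_grad : HasWeakGrad Set.univ n gn
  n_poisson : WeakPoisson Set.univ n ln
  gn_mem : ∀ (i : Fin 3) (ρ : ℝ), MemLp (gn i) 6 (volume.restrict (ball 0 ρ))
  ln_mem : ∀ ρ : ℝ, MemLp ln 2 (volume.restrict (ball 0 ρ))
  ln_loc : ∀ K' : Set Space, IsCompact K' → Disjoint K' {nuc l, -nuc l} →
    ∃ B, ∀ᵐ x : Space, x ∈ K' → |ln x| ≤ B
  ln_far : ∀ x, R ≤ ‖x‖ → ∀ᵐ y : Space, y ∈ ball x 1 → |ln y| ≤ K * ∫ z in ball x 3, n z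
  n_lip : ∀ x y, R ≤ ‖x‖ → dist x y ≤ 1 →
    |Real.sqrt (n x) - Real.sqrt (n y)| ≤ K * Real.sqrt (∫ z in ball x 3, n z) * dist x y
  defect : ∀ᵐ x : Space, R ≤ ‖x‖ → 0 < n x →
    let base := E2 - E3 - attract l x + 2 * lam / ‖x‖
    let X := ln x / (4 * n x) - (∑ i, gn i x ^ 2) / (8 * n x ^ 2)
    base - K / ‖x‖ ^ 2 ≤ X ∧
    (amp χ f x ≠ 0 →
      X ≤ base + K / ‖x‖ ^ 2 + K * ((kinPerp χ f D Dχ gd x + kinDown D x +
        uPerp χ f x ^ 2 + uDown f x ^ 2) / amp χ f x ^ 2 +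
        (uPerp χ f x ^ 2 + uDown f x ^ 2) * (∑ b, gd b x ^ 2) / amp χ f x ^ 4))
  cacc : ∀ η : Space → ℝ, IsBump Set.univ η →
    (∫ x, η x ^ 2 * kinPerp χ f D Dχ gd x ≤ K * ∫ x, (η x ^ 2 + ∑ b, deriv3 b η x ^ 2) *
      (uPerp χ f x ^ 2 + amp χ f x ^ 2 / (1 + ‖x‖ ^ 2) ^ 2)) ∧
    (∫ x, η x ^ 2 * kinDown D x ≤ K * ∫ x, (η x ^ 2 + ∑ b, deriv3 b η x ^ 2) * uDown f x ^ 2) ∧
    ∫ x, η x ^ 2 * ∑ b, gd b x ^ 2 ≤ K * ∫ x, (η x ^ 2 + ∑ b, deriv3 b η x ^ 2) *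
      (amp χ f x ^ 2 + uPerp χ f x ^ 2 / (1 + ‖x‖ ^ 2) ^ 2)

namespace Facts

variable {l lam E3 E2 a R c K δ : ℝ} {f : Cfg 3 → ℝ} {D : Fin 3 → Fin 3 → Cfg 3 → ℝ}
  {χ : Cfg 2 → ℝ} {Dχ : Fin 2 → Fin 3 → Cfg 2 → ℝ} {n : Space → ℝ}
  {gn gd : Fin 3 → Space → ℝ} {ln : Space → ℝ}
  (h : Facts l lam E3 E2 a R c K δ f D χ Dχ n gn gd ln)

include h

lemma down_tail : ∃ P : ℝ, 0 ≤ P ∧ ∀ᵐ x : Space, R ≤ ‖x‖ →
    uDown f x ≤ P * (‖x‖ ^ 3)⁻¹ * tailG a (2 - 2 * lam) ‖x‖ := by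
  obtain ⟨P, hP, hex⟩ := tail_absorb a (2 - 2 * lam) h.δ_pos
  refine ⟨K * P, mul_nonneg h.K_nonneg hP, ?_⟩
  filter_upwards [h.down_bd] with x hx hR
  calc uDown f x ≤ K * Real.exp (-((a + δ) * ‖x‖)) := hx hR
    _ ≤ K * (P * ((‖x‖ ^ 3)⁻¹ * tailG a (2 - 2 * lam) ‖x‖)) :=
        mul_le_mul_of_nonneg_left (hex _ (by linarith [h.four_le])) h.K_nonneg
    _ = _ := by ring

lemma two_sided : ∃ c' C : ℝ, 0 < c' ∧ 0 ≤ C ∧ ∀ x : Space, R + 1 ≤ ‖x‖ →
    c' * (|height x| + (‖x‖ ^ 3)⁻¹) * tailG a (2 - 2 * lam) ‖x‖ ≤ Real.sqrt (n x) ∧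
      Real.sqrt (n x) ≤ C * (|height x| + (‖x‖ ^ 3)⁻¹) * tailG a (2 - 2 * lam) ‖x‖ := by
  obtain ⟨P, hP, hdown⟩ := h.down_tail
  set c' := min c c / 2
  set C := 2 * (K + K) + P
  have hK := h.K_nonneg
  have hae : ∀ᵐ x : Space, x ∈ Ext R →
      c' * (|height x| + (‖x‖ ^ 3)⁻¹) * tailG a (2 - 2 * lam) ‖x‖ ≤ Real.sqrt (n x) ∧
        Real.sqrt (n x) ≤ C * (|height x| + (‖x‖ ^ 3)⁻¹) * tailG a (2 - 2 * lam) ‖x‖ := by
    filter_upwards [h.amp_bd, h.perp_bd, hdown, h.plane_bd, h.n_ae,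
      (memLp_amp h.f_mem h.χ_mem h.χ_one).1] with x h1 h2 h3 h4 hn hsq hx
    have hR : R ≤ ‖x‖ := (mem_ext.1 hx).le
    have hr : 1 ≤ ‖x‖ := by linarith [h.four_le]
    obtain ⟨a1, a2⟩ := h1 hR
    refine root_bounds (uP := uPerp χ f x) (uT := uTot f x) (uD := uDown f x) (abs_nonneg _) (by positivity) (tailG_pos a _ (by linarith)).le
      (Real.sqrt_nonneg _) (Real.sqrt_nonneg _) (Real.sqrt_nonneg _) h.c_pos.le h.c_pos.le hK hK
      hP ?_ hsq a1 a2 ((h2 hR).trans ?_) (h3 hR) (h4 hR)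
    · rw [hn]; simp only [molDensity, uTot, uDown, nrmN_sq]
    · refine mul_le_mul_of_nonneg_right (mul_le_mul_of_nonneg_left
        (add_le_add_left (div_le_self (abs_nonneg _) (one_le_pow₀ hr)) _) hK)
        (tailG_pos a _ (by linarith)).le
  have hne : Ext R ⊆ {x : Space | x ≠ 0} := fun x hx =>
    ne_zero_of_mem_ext (by linarith [h.four_le]) hx
  have hprof : ∀ b : ℝ, ContinuousOn
      (fun x : Space => b * (|height x| + (‖x‖ ^ 3)⁻¹) * tailG a (2 - 2 * lam) ‖x‖) (Ext R) := fun b =>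
    ((continuousOn_const.mul ((continuous_height.abs.continuousOn).add
      (((continuous_norm.pow 3).continuousOn).inv₀ fun x hx =>
        pow_ne_zero 3 (norm_ne_zero_iff.2 (hne hx))))).mul
      ((continuousOn_tailG a _).mono hne))
  have hsq : ContinuousOn (fun x : Space => Real.sqrt (n x)) (Ext R) :=
    h.n_cont.sqrt.continuousOn
  refine ⟨c', C, by have := h.c_pos; positivity, by positivity, fun x hx => ⟨?_, ?_⟩⟩
  · exact le_of_ae_le_open (isOpen_ext R) (hprof c') hsq (hae.mono fun y hy hm => (hy hm).1) x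
      (show R < ‖x‖ by linarith)
  · exact le_of_ae_le_open (isOpen_ext R) hsq (hprof C) (hae.mono fun y hy hm => (hy hm).2) x
      (show R < ‖x‖ by linarith)

lemma positive : ∀ x, 0 < n x := by
  obtain ⟨c', C, hc', hC, hlow⟩ := h.two_sided
  obtain ⟨d, hd, hdown⟩ := h.down_lo
  intro x
  rcases lt_or_ge ‖x‖ (R + 2) with hx | hx
  · refine lt_of_lt_of_le (pow_pos hd 2) (le_of_ae_le_open (isOpen_ball : IsOpen (ball (0 : Space) (R + 2)))
      continuousOn_const h.n_cont.continuousOn ?_ x (by simpa using hx))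
    filter_upwards [hdown, h.n_ae] with y hy hn hm
    rw [hn]
    have h1 : d ^ 2 ≤ uDown f y ^ 2 :=
      pow_le_pow_left₀ hd.le (hy (mem_ball_zero_iff.1 hm).le) 2
    rw [uDown, nrmN_sq] at h1
    have h2 : 0 ≤ ipN (slice 0 f y) (slice 0 f y) := integral_nonneg fun z => mul_self_nonneg _
    rw [molDensity]; linarith
  · have hr : 0 < ‖x‖ := by linarith [h.four_le]
    refine Real.sqrt_pos.1 (lt_of_lt_of_le ?_ (hlow x (by linarith)).1)
    have := tailG_pos a (2 - 2 * lam) hr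
    positivity

lemma defect_bounds : ∀ᵐ x : Space, R ≤ ‖x‖ →
    -((4 * |l| + K) / ‖x‖ ^ 2) ≤ sqrtDefect a (2 - 2 * lam) n gn ln x ∧ (amp χ f x ≠ 0 →
      |sqrtDefect a (2 - 2 * lam) n gn ln x| ≤ (4 * |l| + K) / ‖x‖ ^ 2 + (4 * |l| + K) * ((kinPerp χ f D Dχ gd x + kinDown D x +
        uPerp χ f x ^ 2 + uDown f x ^ 2) / amp χ f x ^ 2 +
        (uPerp χ f x ^ 2 + uDown f x ^ 2) * (∑ b, gd b x ^ 2) / amp χ f x ^ 4)) := by
  obtain ⟨-, -, k1, k2⟩ := kin_integrable h.f_mem h.D_mem h.χ_mem h.Dχ_mem h.gd_mem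
  filter_upwards [h.defect] with x hx hR
  set S := sqrtDefect a (2 - 2 * lam) n gn ln x
  have hr : 0 < ‖x‖ := by linarith [h.four_le]
  obtain ⟨lo, hi⟩ := hx hR (h.positive x)
  obtain ⟨f1, f2⟩ := abs_le.1 (attract_far' l (x := x) (h.two_l.trans hR) (norm_pos_iff.1 hr))
  set X := ln x / (4 * n x) - (∑ i, gn i x ^ 2) / (8 * n x ^ 2) with hX
  have hS : S = X - (E2 - E3 - (2 / ‖x‖ - 2 * lam / ‖x‖)) := by
    show X - farPot a (2 - 2 * lam) ‖x‖ = _
    rw [farPot, h.sq_rate, sub_div]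
  have hsum : (4 * |l| + K) / ‖x‖ ^ 2 = 4 * |l| / ‖x‖ ^ 2 + K / ‖x‖ ^ 2 := add_div _ _ _
  refine ⟨by linarith, fun h0 => ?_⟩
  set T := (kinPerp χ f D Dχ gd x + kinDown D x +
      uPerp χ f x ^ 2 + uDown f x ^ 2) / amp χ f x ^ 2 +
      (uPerp χ f x ^ 2 + uDown f x ^ 2) * (∑ b, gd b x ^ 2) / amp χ f x ^ 4
  have hT : 0 ≤ T := by
    have := k1 x; have := k2 x
    have := Finset.sum_nonneg (s := Finset.univ) fun b (_ : b ∈ Finset.univ) => sq_nonneg (gd b x)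
    positivity
  have hb := hi h0
  have hKT : K * T ≤ (4 * |l| + K) * T :=
    mul_le_mul_of_nonneg_right (le_add_of_nonneg_left (by positivity)) hT
  have hKT0 : 0 ≤ K * T := mul_nonneg h.K_nonneg hT
  exact abs_le.2 ⟨by linarith, by linarith⟩

lemma defect_average : ∃ C : ℝ, 0 ≤ C ∧ ∀ x : Space, R + 1 ≤ ‖x‖ → ‖x‖⁻¹ ≤ |height x| →
    IntegrableOn (sqrtDefect a (2 - 2 * lam) n gn ln) (ball x (min |height x| 1 / 4)) ∧
      ∫ y in ball x (min |height x| 1 / 4), |sqrtDefect a (2 - 2 * lam) n gn ln y| ≤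
        C * (min |height x| 1 / 4) ^ 3 * ((‖x‖ ^ 2)⁻¹ + (‖x‖ ^ 6 * |height x| ^ 4)⁻¹) := by
  obtain ⟨P, hP, hdown⟩ := h.down_tail
  obtain ⟨iP, iD, kP0, kD0⟩ := kin_integrable h.f_mem h.D_mem h.χ_mem h.Dχ_mem h.gd_mem
  have hK := h.K_nonneg
  have hKle : K ≤ 4 * |l| + K + P := by linarith [abs_nonneg l]
  refine defect_avg_of (a := a) (k := 2 - 2 * lam) (K := 4 * |l| + K + P) (c := c) (am := amp χ f) (uP := uPerp χ f)
    (uD := uDown f) (kP := kinPerp χ f D Dχ gd) (kD := kinDown D)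
    (g2 := fun x => ∑ b, gd b x ^ 2) ⟨h.four_le, by positivity, h.c_pos, ?_, ?_, ?_, ?_, ?_,
      iP, iD, ?_, kP0, kD0, fun x => Finset.sum_nonneg fun b _ => sq_nonneg _, ?_, ?_⟩
  · have hln : AEStronglyMeasurable ln :=
      (locallyIntegrableOn_univ.1 h.n_poisson.2.1).aestronglyMeasurable
    have hgn : ∀ i, AEStronglyMeasurable (gn i) := fun i =>
      (locallyIntegrableOn_univ.1 (h.n_grad.2.1 i)).aestronglyMeasurable
    have hnm := h.n_cont.measurable.aemeasurable (μ := volume)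
    refine AEMeasurable.aestronglyMeasurable ?_
    unfold sqrtDefect farPot
    exact ((hln.aemeasurable.div (hnm.const_mul 4)).sub
      ((Finset.aemeasurable_fun_sum _ fun i _ => (hgn i).aemeasurable.pow_const 2).div
        ((hnm.pow_const 2).const_mul 8))).sub
      ((measurable_const.sub (measurable_const.div measurable_norm)).aemeasurable)
  · filter_upwards [h.amp_bd] with x hx hR using (hx hR).1
  · filter_upwards [h.amp_bd] with x hx hR
    exact (hx hR).2.trans (mul_le_mul_of_nonneg_right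
      (mul_le_mul_of_nonneg_right hKle (abs_nonneg _))
      (tailG_pos a _ (by linarith [h.four_le])).le)
  · filter_upwards [h.perp_bd] with x hx hR
    rw [uPerp, abs_of_nonneg (show 0 ≤ nrmN _ from Real.sqrt_nonneg _)]
    exact (hx hR).trans (mul_le_mul_of_nonneg_right
      (mul_le_mul_of_nonneg_right hKle (by positivity))
      (tailG_pos a _ (by linarith [h.four_le])).le)
  · filter_upwards [hdown] with x hx hR
    rw [uDown, abs_of_nonneg (show 0 ≤ nrmN _ from Real.sqrt_nonneg _)]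
    exact (hx hR).trans (mul_le_mul_of_nonneg_right (mul_le_mul (by linarith [abs_nonneg l])
      (le_add_of_nonneg_left (by positivity)) (by positivity) (by positivity))
      (tailG_pos a _ (by linarith [h.four_le])).le)
  · exact integrable_finsetSum _ fun b _ => (h.gd_mem b).integrable_sq
  · intro η hη
    have hmono : ∀ (v : Space → ℝ) (L : ℝ), (∀ x, 0 ≤ v x) →
        L ≤ K * (∫ x, (η x ^ 2 + ∑ b, deriv3 b η x ^ 2) * v x) →
        L ≤ (4 * |l| + K + P) * ∫ x, (η x ^ 2 + ∑ b, deriv3 b η x ^ 2) * v x := fun v L hv hL =>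
      hL.trans (mul_le_mul_of_nonneg_right hKle (integral_nonneg fun x => mul_nonneg
        (add_nonneg (sq_nonneg _) (Finset.sum_nonneg fun b _ => sq_nonneg _)) (hv x)))
    obtain ⟨e1, e2, e3⟩ := h.cacc η hη
    exact ⟨hmono _ _ (fun x => by positivity) e1, hmono _ _ (fun x => sq_nonneg _) e2,
      hmono _ _ (fun x => by positivity) e3⟩
  · filter_upwards [h.defect_bounds] with x hx hR h0
    refine ((hx hR).2 h0).trans (add_le_add
      (div_le_div_of_nonneg_right (by linarith) (sq_nonneg _))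
      (mul_le_mul_of_nonneg_right (by linarith) ?_))
    have := kP0 x; have := kD0 x
    have := Finset.sum_nonneg (s := Finset.univ) fun b (_ : b ∈ Finset.univ) => sq_nonneg (gd b x)
    positivity

theorem nodal : NodalDensity n := by
  obtain ⟨c', C₁, hc', hC₁, hbd⟩ := h.two_sided
  obtain ⟨M, hM, hmass⟩ := mass_ball_le (a := a) (k := 2 - 2 * lam)
    (show 4 ≤ R + 1 by linarith [h.four_le]) hC₁ (fun x => (h.n_bd x).1) fun x hx => (hbd x hx).2
  obtain ⟨C₂, hlap⟩ := lap_far_of (a := a) (k := 2 - 2 * lam) (ln := ln)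
    (show 4 ≤ R + 1 + 3 by linarith [h.four_le]) (show R ≤ R + 1 + 3 by linarith)
    (fun x hx => (hmass x hx).1) (fun x => (h.n_bd x).1) hM h.ln_far
  obtain ⟨C₃, hC₃, havg⟩ := h.defect_average
  obtain ⟨hint, hint3⟩ := molDensity_integral h.f_mem h.f_one
  have hK := h.K_nonneg
  set C := C₁ + K + K * Real.sqrt M + |C₂| + (4 * |l| + K) + C₃ with hC
  have hl0 := abs_nonneg l
  have hs0 : 0 ≤ K * Real.sqrt M := mul_nonneg hK (Real.sqrt_nonneg _)
  have hC₂ := abs_nonneg C₂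
  refine ⟨a, 2 - 2 * lam, R + 6, c', C, gn, ln, ?_⟩
  refine
    { a_pos := h.a_pos
      c_pos := hc'
      one_le := by linarith [h.four_le]
      continuous := h.n_cont
      positive := h.positive
      bounded := fun x => (h.n_bd x).2.trans (by rw [hC]; linarith)
      integrable := hint.congr h.n_ae.symm
      integral_eq := (integral_congr_ae h.n_ae).trans hint3
      axial := axialSym_of_ae h.n_cont h.n_ae h.axis h.odd
      hasGrad := h.n_grad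
      poisson := h.n_poisson
      grad_memLp := h.gn_mem
      lap_memLp := h.ln_mem
      lower := fun x hx => (hbd x (by linarith)).1
      upper := fun x hx => ?_
      lipschitz := fun x y hx _ hxy => ?_
      regular := ⟨{nuc l, -nuc l}, fun K' hK' hd => h.ln_loc K' hK' (by simpa using hd)⟩
      lap_far := ?_
      defect_lower := ?_
      defect_avg := fun x hx hz => ?_ }
  · refine (hbd x (by linarith)).2.trans ?_
    have := tailG_pos a (2 - 2 * lam) (show 0 < ‖x‖ by linarith [h.four_le])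
    exact mul_le_mul_of_nonneg_right
      (mul_le_mul_of_nonneg_right (by rw [hC]; linarith) (by positivity)) this.le
  · refine (h.n_lip x y (by linarith) hxy).trans (mul_le_mul_of_nonneg_right ?_ dist_nonneg)
    calc K * Real.sqrt (∫ z in ball x 3, n z)
        ≤ K * (Real.sqrt M * ((1 + |height x|) * tailG a (2 - 2 * lam) ‖x‖)) :=
          mul_le_mul_of_nonneg_left (hmass x (by linarith)).2 hK
      _ = K * Real.sqrt M * ((1 + |height x|) * tailG a (2 - 2 * lam) ‖x‖) := by ring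
      _ ≤ C * ((1 + |height x|) * tailG a (2 - 2 * lam) ‖x‖) := mul_le_mul_of_nonneg_right (by rw [hC]; linarith)
          (mul_nonneg (by positivity) (tailG_pos a _ (by linarith [h.four_le])).le)
      _ = _ := by ring
  · filter_upwards [hlap] with x hx hR
    exact (hx (by linarith)).trans (mul_le_mul_of_nonneg_right
      ((le_abs_self C₂).trans (by rw [hC]; linarith)) (sq_nonneg _))
  · filter_upwards [h.defect_bounds] with x hx hR
    refine le_trans ?_ (hx (by linarith)).1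
    exact neg_le_neg (div_le_div_of_nonneg_right (by rw [hC]; linarith) (sq_nonneg _))
  · obtain ⟨hi, hle⟩ := havg x (by linarith) hz
    exact ⟨hi, hle.trans (mul_le_mul_of_nonneg_right
      (mul_le_mul_of_nonneg_right (by rw [hC]; linarith) (by positivity)) (by positivity))⟩

end Facts

/-- The interacting half from its parts. -/
theorem interGoal (hDec : DecayStmt) (hAm : AmpBoundStmt) (hPe : PerpBoundStmt)
    (hPl : PlaneStmt) (hDL : DownLowerStmt) (hDen : DensityStmt) (hEn : PerpEnergyStmt) :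
    InterGoal := by
  intro l g u Dg Du eg eu e' Z C
  obtain ⟨t₁, δ₀, A, a₀, N, hRt, hrate⟩ := exists_rates Z C
  obtain ⟨t₂, R₂, K₂, δ, ε, ht₂, hR₂, hδ, -, hdec⟩ := hDec l g u Dg Du eg eu e' Z C
  obtain ⟨t₃, R₃, K₃, c₃, ht₃, hR₃, hc₃, hamp⟩ := hAm l g u Dg Du eg eu e' Z C
  obtain ⟨t₄, R₄, K₄, ht₄, hR₄, hperp⟩ := hPe l g u Dg Du eg eu e' Z C
  obtain ⟨t₅, ht₅, hplane⟩ := hPl l g u Dg Du eg eu e' Z C
  obtain ⟨t₆, ht₆, hlow⟩ := hDL l g u Dg Du eg eu e' Z C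
  obtain ⟨t₇, K₇, R₇, ht₇, hR₇, hden⟩ := hDen l g u Dg Du eg eu e' Z C
  obtain ⟨t₈, K₈, ht₈, hen⟩ := hEn l g u Dg Du eg eu e' Z C
  refine ⟨min (min (min t₁ t₂) (min t₃ t₄)) (min (min t₅ t₆) (min t₇ t₈)),
    lt_min (lt_min (lt_min hRt.lam_pos ht₂) (lt_min ht₃ ht₄))
      (lt_min (lt_min ht₅ ht₆) (lt_min ht₇ ht₈)), ?_⟩
  intro lam hlam E3 f D E2 χ Dχ Es χs Ds Et χt Dt hst
  obtain ⟨hl0, hl⟩ := hlam
  simp only [lt_min_iff] at hl
  obtain ⟨⟨⟨l1, l2⟩, l3, l4⟩, ⟨l5, l6⟩, l7, l8⟩ := hl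
  obtain ⟨ha2, -, haa, -⟩ := hrate lam ⟨hl0, l1⟩ E3 f D E2 χ Dχ Es χs Ds Et χt Dt hst
  obtain ⟨-, -, -, hD, -⟩ := hdec lam ⟨hl0, l2⟩ E3 f D E2 χ Dχ Es χs Ds Et χt Dt hst
  obtain ⟨d, -, hdae, hd⟩ := hamp lam ⟨hl0, l3⟩ E3 f D E2 χ Dχ Es χs Ds Et χt Dt hst
  have hpe := hperp lam ⟨hl0, l4⟩ E3 f D E2 χ Dχ Es χs Ds Et χt Dt hst
  obtain ⟨R₅, c₅, hR₅, hc₅, hpl⟩ := hplane lam ⟨hl0, l5⟩ E3 f D E2 χ Dχ Es χs Ds Et χt Dt hst
  have hdl := hlow lam ⟨hl0, l6⟩ E3 f D E2 χ Dχ Es χs Ds Et χt Dt hst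
  obtain ⟨n, gn, gd', ln, hnc, hnb, hnae, hngr, hnpo, hgd', hgn6, hln2, hloc, hfar, hlip, hdef⟩ :=
    hden lam ⟨hl0, l7⟩ E3 f D E2 χ Dχ Es χs Ds Et χt Dt hst
  obtain ⟨gd, hgd, hgdm, hcac⟩ := hen lam ⟨hl0, l8⟩ E3 f D E2 χ Dχ Es χs Ds Et χt Dt hst
  have hlam1 : lam ≤ 1 := l1.le.trans hRt.lam_le
  set a := decayRate E2 E3 with ha
  set R := max (max (max R₂ R₃) (max R₄ R₅)) (max (max R₇ 4) (2 * |l|)) with hR
  have hRle : R₂ ≤ R ∧ R₃ ≤ R ∧ R₄ ≤ R ∧ R₅ ≤ R ∧ R₇ ≤ R ∧ 4 ≤ R ∧ 2 * |l| ≤ R := by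
    simp [hR, le_max_iff]
  obtain ⟨q2, q3, q4, q5, q7, qf, ql⟩ := hRle
  set K := |K₂| + |K₃| + |K₄| + |K₇| + |K₈| with hK
  have k2 : K₂ ≤ K := by
    rw [hK]; linarith [le_abs_self K₂, abs_nonneg K₃, abs_nonneg K₄, abs_nonneg K₇, abs_nonneg K₈]
  have k3 : K₃ ≤ K := by
    rw [hK]; linarith [le_abs_self K₃, abs_nonneg K₂, abs_nonneg K₄, abs_nonneg K₇, abs_nonneg K₈]
  have k4 : K₄ ≤ K := by
    rw [hK]; linarith [le_abs_self K₄, abs_nonneg K₂, abs_nonneg K₃, abs_nonneg K₇, abs_nonneg K₈]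
  have k7 : |K₇| ≤ K := by
    rw [hK]; linarith [abs_nonneg K₂, abs_nonneg K₃, abs_nonneg K₄, abs_nonneg K₈]
  have k7' : K₇ ≤ K := (le_abs_self K₇).trans k7
  have k8 : |K₈| ≤ K := by
    rw [hK]; linarith [abs_nonneg K₂, abs_nonneg K₃, abs_nonneg K₄, abs_nonneg K₇]
  have hf : MemLp f 2 := hst.three.lowest.lim.1
  have hχ : MemLp χ 2 := hst.ion.lowest.lim.1
  have hχ1 : ∫ y, χ y ^ 2 = 1 := hst.ion.lowest.mass_one
  have htot : MemLp (fun x => nrmN (slice 0 f x)) 2 := memLp_slice_norm hf 0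
  obtain ⟨-, hmA, hmP⟩ := memLp_amp hf hχ hχ1
  have hA2 : MemLp (amp χ f) 2 := htot.mono hmA ((ae_amp_le hf hχ hχ1).mono fun x hx => by
    rw [Real.norm_eq_abs, Real.norm_eq_abs]; exact hx.1.trans (le_abs_self _))
  have hP2 : MemLp (uPerp χ f) 2 := htot.mono hmP ((ae_amp_le hf hχ hχ1).mono fun x hx => by
    rw [Real.norm_eq_abs, Real.norm_eq_abs, uPerp,
      abs_of_nonneg (show 0 ≤ nrmN _ from Real.sqrt_nonneg _)]
    exact hx.2.trans (le_abs_self _))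
  have heq : ∀ᵐ x : Space, ∀ b, gd' b x = gd b x := ae_all_iff.2 fun b => by
    have := hgd'.unique isOpen_univ hgd b
    rwa [Measure.restrict_univ] at this
  have hG : ∀ {x : Space}, R ≤ ‖x‖ → 0 ≤ tailG a (2 - 2 * lam) ‖x‖ := fun hx =>
    (tailG_pos _ _ (lt_of_lt_of_le (by norm_num) (qf.trans hx))).le
  refine ⟨n, hnae, Facts.nodal (a := a) (lam := lam) (R := R) (c := min c₃ c₅) (K := K) (δ := δ)
    (l := l) (E3 := E3) (E2 := E2) (f := f) (D := D) (χ := χ) (Dχ := Dχ) (gn := gn) (gd := gd)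
    (ln := ln) ⟨hRt.a₀_pos.trans_le haa, ha2, hl0.le, hlam1, qf, ql, lt_min hc₃ hc₅,
      by rw [hK]; positivity, hδ, hf, hst.three.lowest.mass_one, hst.three.lowest.lim.2.1, hχ,
      hχ1, hst.ion.lowest.lim.2.1, hgdm, hst.three.axis, hst.three.odd, ?_, ?_, ?_, ?_,
      hdl (R + 2), hnc, fun x => ⟨(hnb x).1, (hnb x).2.trans k7'⟩, hnae, hngr, hnpo, hgn6, hln2,
      hloc, ?_, ?_, ?_, ?_⟩⟩
  · filter_upwards [hdae] with x hx hxR
    rw [hx (by linarith)]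
    obtain ⟨-, d1, d2, -⟩ := hd x (q3.trans hxR)
    exact ⟨(mul_le_mul_of_nonneg_right
        (mul_le_mul_of_nonneg_right (min_le_left c₃ c₅) (abs_nonneg _)) (hG hxR)).trans d1,
      d2.trans (mul_le_mul_of_nonneg_right
        (mul_le_mul_of_nonneg_right k3 (abs_nonneg _)) (hG hxR))⟩
  · filter_upwards [hpe] with x hx hxR
    exact (hx (q4.trans hxR)).trans (mul_le_mul_of_nonneg_right
      (mul_le_mul_of_nonneg_right k4 (by positivity)) (hG hxR))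
  · filter_upwards [hD] with x hx hxR
    exact (hx (q2.trans hxR)).trans (mul_le_mul_of_nonneg_right k2 (Real.exp_pos _).le)
  · filter_upwards [hpl] with x hx hxR
    refine le_trans ?_ (hx (q5.trans hxR))
    rw [div_eq_mul_inv]
    exact mul_le_mul_of_nonneg_right
      (mul_le_mul_of_nonneg_right (min_le_right c₃ c₅) (by positivity)) (hG hxR)
  · intro x hx
    filter_upwards [hfar x (q7.trans hx)] with y hy hyb
    exact (hy hyb).trans (mul_le_mul_of_nonneg_right k7' (integral_nonneg fun z => (hnb z).1))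
  · intro x y hx hxy
    exact (hlip x y (q7.trans hx) hxy).trans (mul_le_mul_of_nonneg_right
      (mul_le_mul_of_nonneg_right k7' (Real.sqrt_nonneg _)) dist_nonneg)
  · obtain ⟨-, -, kP0, kD0⟩ :=
      kin_integrable hf hst.three.lowest.lim.2.1 hχ hst.ion.lowest.lim.2.1 hgdm
    filter_upwards [hdef, heq] with x hx he hxR hpos
    obtain ⟨lo, hi⟩ := hx (q7.trans hxR) hpos
    have hKl : K₇ * lam / ‖x‖ ^ 2 ≤ K / ‖x‖ ^ 2 := by
      refine div_le_div_of_nonneg_right ?_ (sq_nonneg _)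
      calc K₇ * lam ≤ |K₇| * lam := mul_le_mul_of_nonneg_right (le_abs_self _) hl0.le
        _ ≤ |K₇| * 1 := mul_le_mul_of_nonneg_left hlam1 (abs_nonneg _)
        _ ≤ K := by rw [mul_one]; exact k7
    refine ⟨le_trans (sub_le_sub_left hKl _) lo, fun h0 => (hi h0).trans ?_⟩
    rw [show kinPerp χ f D Dχ gd' x = kinPerp χ f D Dχ gd x by simp only [kinPerp, he],
      show (∑ b, gd' b x ^ 2) = ∑ b, gd b x ^ 2 by simp only [he]]
    refine add_le_add (add_le_add le_rfl hKl) (mul_le_mul_of_nonneg_right k7' ?_)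
    have := kP0 x; have := kD0 x
    have := Finset.sum_nonneg (s := Finset.univ) fun b (_ : b ∈ Finset.univ) => sq_nonneg (gd b x)
    positivity
  · intro η hη
    obtain ⟨e1, e2, e3⟩ := hcac η hη
    have hl2 : lam ^ 2 ≤ 1 := pow_le_one₀ hl0.le hlam1
    have hq : ∀ (x : Space) (t : ℝ),
        lam ^ 2 / (1 + ‖x‖ ^ 2) ^ 2 * t ^ 2 ≤ t ^ 2 / (1 + ‖x‖ ^ 2) ^ 2 := fun x t => by
      rw [div_mul_eq_mul_div]
      exact div_le_div_of_nonneg_right (mul_le_of_le_one_left (sq_nonneg _) hl2) (sq_nonneg _)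
    have hint : ∀ {t : Space → ℝ}, MemLp t 2 →
        Integrable fun x : Space => t x ^ 2 / (1 + ‖x‖ ^ 2) ^ 2 := fun {t} ht => by
      refine ht.integrable_sq.mono' ?_ (Eventually.of_forall fun x => ?_)
      · exact ((ht.aemeasurable.pow_const 2).div
          (by fun_prop : Measurable fun x : Space => (1 + ‖x‖ ^ 2) ^ 2).aemeasurable
          ).aestronglyMeasurable
      · rw [Real.norm_eq_abs, abs_of_nonneg (by positivity)]
        exact div_le_self (sq_nonneg _) (one_le_pow₀ (by nlinarith [sq_nonneg ‖x‖]))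
    exact ⟨cacc_rhs hη k8 (fun x => by positivity) (hP2.integrable_sq.add (hint hA2))
        (fun x => add_le_add le_rfl (hq x _)) e1,
      cacc_rhs hη k8 (fun x => sq_nonneg _) (memLp_slice_norm hf 2).integrable_sq
        (fun x => le_rfl) e2,
      cacc_rhs hη k8 (fun x => by positivity) (hA2.integrable_sq.add (hint hP2))
        (fun x => add_le_add le_rfl (hq x _)) e3⟩

end Vale.Agent.P363.Inter
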