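import Vale.Agent.P363.Inter.Bar.AmpBasics
import Vale.Agent.P363.Inter.Bar.DecayBase
import Vale.Agent.P363.Spec
import Vale.Agent.P363.KS.AxialAvg
import Vale.Agent.P363.Tool.Weak

/-!
P363, interacting side: tools for assembling the nodal-plane structure of the density.
-/

noncomputable section

namespace Vale.Agent.P363.Inter

open MeasureTheory Metric Filter
open scoped BigOperators Topology

lemma tailG_pos (a k : ℝ) {r : ℝ} (hr : 0 < r) : 0 < tailG a k r :=
  powExp_pos (k / a - 2) a hr

lemma continuousOn_tailG (a k : ℝ) :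
    ContinuousOn (fun x : Space => tailG a k ‖x‖) {x : Space | x ≠ 0} := by
  unfold tailG
  exact (continuous_norm.continuousOn.rpow_const fun x hx => Or.inl (norm_ne_zero_iff.2 hx)).mul
    (Continuous.continuousOn (by fun_prop))

/-- The tail changes by a bounded factor over bounded distances. -/
lemma tailG_near (a k : ℝ) : ∃ P : ℝ, 0 < P ∧ ∀ r s : ℝ, 4 ≤ r → |s - r| ≤ 3 →
    tailG a k s ≤ P * tailG a k r ∧ tailG a k r ≤ P * tailG a k s := by
  set b := k / a - 2 with hb
  refine ⟨(4 : ℝ) ^ |b| * Real.exp (3 * |a|), by positivity, ?_⟩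
  have key : ∀ r s : ℝ, 0 < r → 0 < s → s ≤ 4 * r → r ≤ 4 * s → |s - r| ≤ 3 →
      tailG a k s ≤ (4 : ℝ) ^ |b| * Real.exp (3 * |a|) * tailG a k r := by
    intro r s hr hs h1 h2 h3
    have e1 : s ^ b ≤ (4 : ℝ) ^ |b| * r ^ b := by
      rw [← div_le_iff₀ (Real.rpow_pos_of_pos hr b), ← Real.div_rpow hs.le hr.le]
      rcases le_or_gt 0 b with h | h
      · rw [abs_of_nonneg h]
        exact Real.rpow_le_rpow (by positivity) ((div_le_iff₀ hr).2 h1) h
      · rw [abs_of_neg h, show b = -(-b) by ring, Real.rpow_neg (by positivity), neg_neg,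
          ← Real.inv_rpow (by positivity), inv_div]
        exact Real.rpow_le_rpow (by positivity) ((div_le_iff₀ hs).2 h2) (by linarith)
    have e2 : Real.exp (-(a * s)) ≤ Real.exp (3 * |a|) * Real.exp (-(a * r)) := by
      rw [← Real.exp_add]
      refine Real.exp_le_exp.2 ?_
      have := abs_mul a (r - s)
      have h4 : a * (r - s) ≤ |a| * 3 := (le_abs_self _).trans
        (this ▸ mul_le_mul_of_nonneg_left (by rwa [abs_sub_comm]) (abs_nonneg a))
      linarith
    unfold tailG
    rw [← hb]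
    exact (mul_le_mul e1 e2 (Real.exp_pos _).le (by positivity)).trans_eq (by ring)
  intro r s hr hs
  obtain ⟨h1, h2⟩ := abs_le.1 hs
  exact ⟨key r s (by linarith) (by linarith) (by linarith) (by linarith) hs,
    key s r (by linarith) (by linarith) (by linarith) (by linarith) (by rwa [abs_sub_comm])⟩

lemma height_lip (x y : Space) : |height x - height y| ≤ dist x y := by
  rw [dist_eq_norm, show height x - height y = (x - y) 2 from rfl]
  exact PiLp.norm_apply_le (x - y) 2

lemma norm_lip (x y : Space) : |‖x‖ - ‖y‖| ≤ dist x y := by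
  rw [dist_eq_norm]; exact abs_norm_sub_norm_le x y

/-- An inequality between continuous functions holding almost everywhere in an open set holds
everywhere there. -/
lemma le_of_ae_le_open {U : Set Space} (hU : IsOpen U) {F G : Space → ℝ} (hF : ContinuousOn F U)
    (hG : ContinuousOn G U) (h : ∀ᵐ x : Space, x ∈ U → F x ≤ G x) : ∀ x ∈ U, F x ≤ G x := by
  intro x hx
  have h1 : (fun y => max (F y) (G y)) =ᵐ[volume.restrict U] G := by
    rw [EventuallyEq, ae_restrict_iff' hU.measurableSet]
    filter_upwards [h] with y hy hyU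
    exact max_eq_right (hy hyU)
  have := Measure.eqOn_open_of_ae_eq h1 hU (hF.sup hG) hG hx
  exact (le_max_left _ _).trans_eq this

/-- A bump equal to one on a ball, supported in the double ball, with slope `1 / ρ`. -/
lemma exists_scaled_bump : ∃ B : ℝ, 0 ≤ B ∧ ∀ (x : Space) (ρ : ℝ), 0 < ρ →
    ∃ η : Space → ℝ, IsBump Set.univ η ∧ (∀ y, η y ∈ Set.Icc (0 : ℝ) 1) ∧
      (∀ y ∈ ball x ρ, η y = 1) ∧ (∀ y, y ∉ closedBall x (2 * ρ) → η y = 0 ∧ ∀ a, deriv3 a η y = 0) ∧
      ∀ y a, |deriv3 a η y| ≤ B / ρ := by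
  let b : ContDiffBump (0 : Space) := ⟨1, 2, one_pos, one_lt_two⟩
  obtain ⟨K, hK⟩ := ContDiff.lipschitzWith_of_hasCompactSupport b.hasCompactSupport
    (b.contDiff (n := 1)) one_ne_zero
  refine ⟨K, K.coe_nonneg, fun x ρ hρ => ?_⟩
  set η : Space → ℝ := fun y => b (ρ⁻¹ • (y - x)) with hη
  have hs : ∀ y, y ∉ closedBall x (2 * ρ) → η y = 0 := by
    intro y hy
    refine b.zero_of_le_dist ?_
    rw [dist_zero_right, norm_smul, norm_inv, Real.norm_eq_abs, abs_of_pos hρ, ← dist_eq_norm]
    rw [mem_closedBall, not_le] at hy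
    show (2 : ℝ) ≤ _
    rw [le_inv_mul_iff₀ hρ]
    linarith
  have hsm : ContDiff ℝ ((⊤ : ℕ∞) : WithTop ℕ∞) η :=
    b.contDiff.comp ((contDiff_id.sub contDiff_const).const_smul ρ⁻¹)
  have hcs : HasCompactSupport η := HasCompactSupport.intro (isCompact_closedBall _ _) hs
  refine ⟨η, ⟨hsm, hcs, Set.subset_univ _⟩, fun y => ⟨b.nonneg, b.le_one⟩, fun y hy => ?_,
    fun y hy => ⟨hs y hy, fun a => ?_⟩, fun y a => ?_⟩
  · refine b.one_of_mem_closedBall ?_
    rw [mem_closedBall, dist_zero_right, norm_smul, norm_inv, Real.norm_eq_abs, abs_of_pos hρ,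
      ← dist_eq_norm]
    show _ ≤ (1 : ℝ)
    rw [inv_mul_le_iff₀ hρ, mul_one]
    exact (mem_ball.1 hy).le
  · have : η =ᶠ[𝓝 y] fun _ => 0 := by
      filter_upwards [isClosed_closedBall.isOpen_compl.mem_nhds hy] with z hz using hs z hz
    rw [deriv3, this.fderiv_eq]
    simp
  · have hl : LipschitzWith (K * ρ⁻¹.toNNReal) η := by
      refine hK.comp (LipschitzWith.of_dist_le_mul fun y z => ?_)
      rw [dist_eq_norm, dist_eq_norm, ← smul_sub, sub_sub_sub_cancel_right, norm_smul,
        Real.norm_eq_abs, abs_of_pos (inv_pos.2 hρ), Real.coe_toNNReal _ (inv_pos.2 hρ).le]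
    have h := (norm_fderiv_le_of_lipschitz ℝ hl (x₀ := y))
    refine ((fderiv ℝ η y).le_opNorm (unit3 a)).trans ?_
    rw [NNReal.coe_mul, Real.coe_toNNReal _ (inv_pos.2 hρ).le] at h
    simpa [unit3, div_eq_mul_inv] using h

lemma volume_real_ball (x : Space) {ρ : ℝ} (hρ : 0 < ρ) :
    volume.real (ball x ρ) = ρ ^ 3 * volume.real (ball (0 : Space) 1) := by
  rw [measureReal_def, measureReal_def, Measure.addHaar_ball_of_pos volume x hρ,
    finrank_euclideanSpace_fin, ENNReal.toReal_mul, ENNReal.toReal_ofReal (by positivity)]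

lemma volume_real_closedBall (x : Space) {ρ : ℝ} (hρ : 0 < ρ) :
    volume.real (closedBall x ρ) = ρ ^ 3 * volume.real (ball (0 : Space) 1) := by
  rw [measureReal_def, measureReal_def, Measure.addHaar_closedBall volume x hρ.le,
    finrank_euclideanSpace_fin, ENNReal.toReal_mul, ENNReal.toReal_ofReal (by positivity)]

/-- Integrals of bounded functions over balls. -/
lemma setIntegral_ball_le {F : Space → ℝ} {x : Space} {ρ B : ℝ} (hρ : 0 < ρ)
    (h0 : ∀ᵐ y : Space, y ∈ ball x ρ → 0 ≤ F y) (h : ∀ᵐ y : Space, y ∈ ball x ρ → F y ≤ B) :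
    ∫ y in ball x ρ, F y ≤ B * (ρ ^ 3 * volume.real (ball (0 : Space) 1)) := by
  rw [← volume_real_ball x hρ]
  refine (integral_mono_of_nonneg ((ae_restrict_iff' measurableSet_ball).2 h0)
    (integrableOn_const (C := B) measure_ball_lt_top.ne)
    ((ae_restrict_iff' measurableSet_ball).2 h)).trans_eq ?_
  rw [setIntegral_const, smul_eq_mul, mul_comm]

/-- The density of a state is integrable with integral three. -/
lemma molDensity_integral {f : Cfg 3 → ℝ} (hf : MemLp f 2) (h1 : ∫ z, f z ^ 2 = 1) :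
    Integrable (molDensity f) ∧ ∫ r, molDensity f r = 3 := by
  obtain ⟨i0, e0⟩ := integral_sliceSq 0 hf
  obtain ⟨i2, e2⟩ := integral_sliceSq 2 hf
  have hone : ipN f f = 1 := by rw [← h1]; simp [ipN, sq]
  have he : molDensity f = fun r => 2 * sliceSq 0 f r + sliceSq 2 f r := rfl
  rw [he]
  refine ⟨(i0.const_mul 2).add i2, ?_⟩
  rw [integral_add (i0.const_mul 2) i2, integral_const_mul, e0, e2, hone]
  norm_num

/-- The density is invariant under a symmetry of the state up to sign. -/
lemma molDensity_comp {f : Cfg 3 → ℝ} {R : Space ≃ₗᵢ[ℝ] Space} {τ : ℝ} (hτ : τ ^ 2 = 1)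
    (h : ∀ᵐ z, f (fun j => R (z j)) = τ * f z) :
    ∀ᵐ x : Space, molDensity f (R x) = molDensity f x := by
  have key : ∀ i : Fin 3, ∀ᵐ x : Space, sliceSq i f (R x) = sliceSq i f x := by
    intro i
    have h2 := Measure.ae_ae_of_ae_prod ((mp_ins i).quasiMeasurePreserving.ae h)
    have hmp : MeasurePreserving (fun y : Cfg 2 => fun k => R (y k)) volume volume :=
      volume_preserving_pi fun _ => R.measurePreserving
    have hemb : MeasurableEmbedding (fun y : Cfg 2 => fun k => R (y k)) :=
      Measurable.measurableEmbedding hmp.measurable fun a b hab =>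
        funext fun k => R.injective (congrFun hab k)
    filter_upwards [h2] with x hx
    simp only [sliceSq, ipN, slice]
    rw [← hmp.integral_comp hemb]
    refine integral_congr_ae ?_
    filter_upwards [hx] with y hy
    have e : (fun j => R ((i.insertNth x y : Cfg 3) j)) =
        (i.insertNth (R x) fun k => R (y k) : Cfg 3) := by
      funext j
      rcases Fin.eq_self_or_eq_succAbove i j with rfl | ⟨m, rfl⟩ <;> simp
    simp only [e] at hy
    rw [hy]
    linear_combination (f (i.insertNth x y) ^ 2) * hτ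
  filter_upwards [key 0, key 2] with x h0 h2
  show 2 * sliceSq 0 f (R x) + sliceSq 2 f (R x) = 2 * sliceSq 0 f x + sliceSq 2 f x
  rw [h0, h2]

/-- A continuous representative of the density is exactly axially symmetric. -/
lemma axialSym_of_ae {f : Cfg 3 → ℝ} {n : Space → ℝ} (hn : Continuous n)
    (hnf : n =ᵐ[volume] molDensity f)
    (hax : ∀ R : Space ≃ₗᵢ[ℝ] Space, R (unit3 2) = unit3 2 → ∀ᵐ z, f (fun j => R (z j)) = f z)
    (hodd : ∀ᵐ z, f (fun j => mirror (z j)) = -f z) : AxialSym n := by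
  have key : ∀ (R : Space ≃ₗᵢ[ℝ] Space) (τ : ℝ), τ ^ 2 = 1 →
      (∀ᵐ z, f (fun j => R (z j)) = τ * f z) → ∀ x, n (R x) = n x := by
    intro R τ hτ hR x
    have h1 : (fun y => n (R y)) =ᵐ[volume] n := by
      filter_upwards [R.measurePreserving.quasiMeasurePreserving.ae hnf, hnf,
        molDensity_comp hτ hR] with y h1 h2 h3
      rw [h1, h3, ← h2]
    exact congrFun (Measure.eq_of_ae_eq h1 (hn.comp R.continuous) hn) x
  refine ⟨fun θ x => ?_, fun x => ?_⟩
  · have hfix : axIso false θ (unit3 2) = unit3 2 := by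
      ext i; fin_cases i <;> simp [axMap, unit3]
    simpa [axMap] using key (axIso false θ) 1 (one_pow 2)
      ((hax _ hfix).mono fun z hz => by rw [hz, one_mul]) x
  · have h0 : ∀ z : Cfg 3, (fun j => axIso true 0 (z j)) = fun j => mirror (z j) := fun z => by
      funext j; simp [axMap, rot_zero_angle]
    simpa [axMap, rot_zero_angle] using key (axIso true 0) (-1) (by norm_num)
      (hodd.mono fun z hz => by rw [h0, hz, neg_one_mul]) x

end Vale.Agent.P363.Inter
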