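import Vale.Agent.P363.Inter.AssemblyBase
import Vale.Agent.P363.Inter.DensitySpec
import Vale.Agent.P363.Exist.Proj

/-!
P363, interacting side: the fields of the nodal-plane structure one by one.
-/

noncomputable section

namespace Vale.Agent.P363.Inter

open MeasureTheory Metric Filter
open scoped BigOperators Topology

/-- An exponential gain beats any power of the tail. -/
lemma tail_absorb (a k : ℝ) {δ : ℝ} (hδ : 0 < δ) : ∃ P : ℝ, 0 ≤ P ∧ ∀ r : ℝ, 1 ≤ r →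
    Real.exp (-((a + δ) * r)) ≤ P * ((r ^ 3)⁻¹ * tailG a k r) := by
  set b := k / a - 2 with hb
  obtain ⟨P, hP, h⟩ := powExp_le_of_gap (N := |b| + 3) (δ := δ) (by positivity) hδ
  refine ⟨P, hP, fun r hr => ?_⟩
  have h1 := h (b - 3) 0 a (a + δ) r (by linarith [abs_sub b 3, abs_of_nonneg (show (0 : ℝ) ≤ 3 by norm_num)])
    (by rw [abs_zero]; positivity) le_rfl hr
  have hr0 : 0 < r := by linarith
  have e1 : powExp 0 (a + δ) r = Real.exp (-((a + δ) * r)) := by simp [powExp]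
  have e2 : powExp (b - 3) a r = (r ^ 3)⁻¹ * tailG a k r := by
    simp only [powExp, tailG, ← hb]
    rw [Real.rpow_sub hr0, show (3 : ℝ) = ((3 : ℕ) : ℝ) by norm_num, Real.rpow_natCast]
    ring
  rwa [e1, e2] at h1

/-- The two-sided bound of the root of the density at almost every point, from the bounds of the
amplitude, the excited part and the down slice. -/
lemma root_bounds {z s G am uP uT uD nx K₁ K₂ K₃ c₁ c₂ : ℝ} (hz : 0 ≤ z) (hs : 0 ≤ s)
    (hG : 0 ≤ G) (hP : 0 ≤ uP) (hT : 0 ≤ uT) (hD : 0 ≤ uD) (hc₁ : 0 ≤ c₁) (hc₂ : 0 ≤ c₂)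
    (hK₁ : 0 ≤ K₁) (hK₂ : 0 ≤ K₂) (hK₃ : 0 ≤ K₃) (hn : nx = 2 * uT ^ 2 + uD ^ 2)
    (hT2 : uP ^ 2 + am ^ 2 = uT ^ 2) (h1 : c₁ * z * G ≤ |am|) (h2 : |am| ≤ K₁ * z * G)
    (h3 : uP ≤ K₂ * (z + s) * G) (h4 : uD ≤ K₃ * s * G) (h5 : c₂ * s * G ≤ uT) :
    min c₁ c₂ / 2 * (z + s) * G ≤ Real.sqrt nx ∧
      Real.sqrt nx ≤ (2 * (K₁ + K₂) + K₃) * (z + s) * G := by
  have hamT : |am| ≤ uT := abs_le_of_sq_le_sq (by nlinarith) hT
  have hTle : uT ≤ |am| + uP := by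
    refine (abs_le_of_sq_le_sq' (?_ : uT ^ 2 ≤ (|am| + uP) ^ 2) (by positivity)).2
    nlinarith [abs_nonneg am, sq_abs am]
  constructor
  · refine le_trans ?_ (Real.le_sqrt_of_sq_le (show uT ^ 2 ≤ nx by rw [hn]; nlinarith))
    have m1 := mul_le_mul_of_nonneg_right (min_le_left c₁ c₂) (mul_nonneg hz hG)
    have m2 := mul_le_mul_of_nonneg_right (min_le_right c₁ c₂) (mul_nonneg hs hG)
    nlinarith
  · refine (Real.sqrt_le_left (by positivity)).2 ?_
    have hall : 2 * uT + uD ≤ (2 * (K₁ + K₂) + K₃) * (z + s) * G := by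
      nlinarith [mul_nonneg (mul_nonneg hK₁ hs) hG, mul_nonneg (mul_nonneg hK₃ hz) hG]
    refine le_trans ?_ (pow_le_pow_left₀ (by positivity) hall 2)
    rw [hn]
    nlinarith [mul_nonneg hT hD]

/-- A bound of the density outside a ball bounds its mass in balls of radius three. -/
lemma mass_ball_le {n : Space → ℝ} {a k R K : ℝ} (hR : 4 ≤ R) (hK : 0 ≤ K) (hn0 : ∀ x, 0 ≤ n x)
    (hup : ∀ x, R ≤ ‖x‖ →
      Real.sqrt (n x) ≤ K * (|height x| + (‖x‖ ^ 3)⁻¹) * tailG a k ‖x‖) :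
    ∃ C : ℝ, 0 ≤ C ∧ ∀ x, R + 3 ≤ ‖x‖ →
      (∫ z in ball x 3, n z) ≤ C * ((1 + |height x|) * tailG a k ‖x‖) ^ 2 ∧
      Real.sqrt (∫ z in ball x 3, n z) ≤ Real.sqrt C * ((1 + |height x|) * tailG a k ‖x‖) := by
  obtain ⟨P, hP, hnear⟩ := tailG_near a k
  set C := (4 * K * P) ^ 2 * (3 ^ 3 * volume.real (ball (0 : Space) 1)) with hC
  have hC0 : 0 ≤ C := by rw [hC]; exact mul_nonneg (sq_nonneg _) (mul_nonneg (by norm_num) measureReal_nonneg)
  refine ⟨C, hC0, fun x hx => ?_⟩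
  have hx0 : 0 < ‖x‖ := by linarith
  have hG := tailG_pos a k hx0
  set G := tailG a k ‖x‖
  set z := |height x| with hz
  have hz0 : 0 ≤ z := abs_nonneg _
  have h : (∫ y in ball x 3, n y) ≤ C * ((1 + z) * G) ^ 2 := by
    refine (setIntegral_ball_le (B := (4 * K * P * ((1 + z) * G)) ^ 2) (by norm_num)
      (Eventually.of_forall fun y _ => hn0 y) (Eventually.of_forall fun y hy => ?_)).trans_eq
      (by rw [hC]; ring)
    have hd := (mem_ball.1 hy).le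
    obtain ⟨n1, n2⟩ := abs_le.1 (norm_lip y x)
    obtain ⟨d1, d2⟩ := abs_le.1 ((abs_abs_sub_abs_le_abs_sub _ _).trans (height_lip y x))
    obtain ⟨g1, -⟩ := hnear ‖x‖ ‖y‖ (by linarith) (abs_le.2 ⟨by linarith, by linarith⟩)
    have gy := tailG_pos a k (show 0 < ‖y‖ by linarith)
    rw [← Real.sq_sqrt (hn0 y)]
    refine pow_le_pow_left₀ (Real.sqrt_nonneg _) ((hup y (by linarith)).trans ?_) 2
    have h3 : (‖y‖ ^ 3)⁻¹ ≤ 1 := inv_le_one_of_one_le₀ (one_le_pow₀ (by linarith))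
    calc K * (|height y| + (‖y‖ ^ 3)⁻¹) * tailG a k ‖y‖ ≤ K * (4 * (1 + z)) * (P * G) :=
          mul_le_mul (mul_le_mul_of_nonneg_left (by linarith) hK) g1 gy.le (by positivity)
      _ = _ := by ring
  refine ⟨h, (Real.sqrt_le_sqrt h).trans_eq ?_⟩
  rw [Real.sqrt_mul hC0, Real.sqrt_sq (by positivity)]

/-- The Laplacian far away, from its bound by the nearby mass. -/
lemma lap_far_of {n ln : Space → ℝ} {a k R R₁ K K' : ℝ} (hR : 4 ≤ R) (hR1 : R₁ ≤ R)
    (hmass : ∀ x, R ≤ ‖x‖ →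
      (∫ z in ball x 3, n z) ≤ K * ((1 + |height x|) * tailG a k ‖x‖) ^ 2)
    (hn0 : ∀ x, 0 ≤ n x) (hK : 0 ≤ K)
    (hln : ∀ x, R₁ ≤ ‖x‖ → ∀ᵐ y : Space, y ∈ ball x 1 → |ln y| ≤ K' * ∫ z in ball x 3, n z) :
    ∃ C : ℝ, ∀ᵐ y : Space, R + 1 ≤ ‖y‖ → |ln y| ≤ C * ((1 + |height y|) * tailG a k ‖y‖) ^ 2 := by
  obtain ⟨P, hP, hnear⟩ := tailG_near a k
  obtain ⟨s, hsc, hs⟩ := exists_centres
  refine ⟨|K'| * K * (2 * P) ^ 2, ?_⟩
  have hall : ∀ᵐ y : Space, ∀ c ∈ s, R₁ ≤ ‖c‖ → y ∈ ball c 1 →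
      |ln y| ≤ K' * ∫ z in ball c 3, n z := by
    refine (ae_ball_iff hsc).2 fun c _ => ?_
    by_cases hc : R₁ ≤ ‖c‖
    · filter_upwards [hln c hc] with y hy _ using hy
    · exact Eventually.of_forall fun y h => absurd h hc
  filter_upwards [hall] with y hy hyR
  obtain ⟨c, hc, hd⟩ := hs y
  obtain ⟨n1, n2⟩ := abs_le.1 (norm_lip y c)
  obtain ⟨d1, d2⟩ := abs_le.1 ((abs_abs_sub_abs_le_abs_sub _ _).trans (height_lip y c))
  have hcR : R ≤ ‖c‖ := by linarith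
  have h1 : |ln y| ≤ |K'| * ∫ z in ball c 3, n z :=
    (hy c hc (hR1.trans hcR) (mem_ball.2 hd)).trans
      (mul_le_mul_of_nonneg_right (le_abs_self K') (integral_nonneg fun z => hn0 z))
  obtain ⟨g1, -⟩ := hnear ‖y‖ ‖c‖ (by linarith) (abs_le.2 ⟨by linarith, by linarith⟩)
  have gc := tailG_pos a k (show 0 < ‖c‖ by linarith)
  have h2 : (1 + |height c|) * tailG a k ‖c‖ ≤ 2 * P * ((1 + |height y|) * tailG a k ‖y‖) := by
    calc (1 + |height c|) * tailG a k ‖c‖ ≤ (2 * (1 + |height y|)) * (P * tailG a k ‖y‖) :=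
          mul_le_mul (by linarith [abs_nonneg (height y)]) g1 gc.le (by positivity)
      _ = _ := by ring
  calc |ln y| ≤ |K'| * (K * ((1 + |height c|) * tailG a k ‖c‖) ^ 2) :=
        h1.trans (mul_le_mul_of_nonneg_left (hmass c hcR) (abs_nonneg _))
    _ ≤ |K'| * (K * (2 * P * ((1 + |height y|) * tailG a k ‖y‖)) ^ 2) := by
        refine mul_le_mul_of_nonneg_left (mul_le_mul_of_nonneg_left
          (pow_le_pow_left₀ (mul_nonneg (by positivity) gc.le) h2 2) hK) (abs_nonneg _)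
    _ = _ := by ring

/-- Square integrability of a gradient gives integrability of the slice kinetic energies. -/
lemma kin_integrable {f : Cfg 3 → ℝ} {D : Fin 3 → Fin 3 → Cfg 3 → ℝ} {χ : Cfg 2 → ℝ}
    {Dχ : Fin 2 → Fin 3 → Cfg 2 → ℝ} {gd : Fin 3 → Space → ℝ} (hf : MemLp f 2)
    (hD : ∀ i a, MemLp (D i a) 2) (hχ : MemLp χ 2) (hDχ : ∀ i a, MemLp (Dχ i a) 2)
    (hgd : ∀ a, MemLp (gd a) 2) :
    Integrable (kinPerp χ f D Dχ gd) ∧ Integrable (kinDown D) ∧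
      (∀ x, 0 ≤ kinPerp χ f D Dχ gd x) ∧ ∀ x, 0 ≤ kinDown D x := by
  have hins : ∀ (i : Fin 3) {F : Cfg 3 → ℝ}, MemLp F 2 →
      MemLp (fun p : Space × Cfg 2 => F (i.insertNth p.1 p.2)) 2 (volume.prod volume) :=
    fun i F hF => (memLp_two_iff_integrable_sq (aestronglyMeasurable_insert hF i)).2
      (integrable_insert hF i)
  have hsub : ∀ (i : Fin 3) {F : Cfg 3 → ℝ} {p : Space → ℝ} {q : Cfg 2 → ℝ}, MemLp F 2 →
      MemLp p 2 → MemLp q 2 →
      Integrable fun x : Space => ∫ y, (slice i F x y - p x * q y) ^ 2 := by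
    intro i F p q hF hp hq
    exact ((hins i hF).sub (Exist.memLp_tensor hp hq)).integrable_sq.integral_prod_left
  have hamp : MemLp (amp χ f) 2 := (ampAt_sq_le 0 hχ hf).2.1
  refine ⟨?_, ?_, fun x => ?_, fun x => ?_⟩
  · refine Integrable.add (integrable_finsetSum _ fun a _ => hsub 0 (hD 0 a) (hgd a) hχ) ?_
    unfold ionKin
    refine integrable_finsetSum _ fun i _ => integrable_finsetSum _ fun a _ => ?_
    simpa [weight] using hsub 0 (hD _ a) hamp (hDχ i a)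
  · unfold kinDown
    exact integrable_finsetSum _ fun i _ => integrable_finsetSum _ fun a _ =>
      (integrable_insert (hD i a) 2).integral_prod_left
  · unfold kinPerp ionKin
    refine add_nonneg (Finset.sum_nonneg fun a _ => integral_nonneg fun y => sq_nonneg _) ?_
    exact Finset.sum_nonneg fun i _ => Finset.sum_nonneg fun a _ =>
      integral_nonneg fun y => sq_nonneg _
  · exact Finset.sum_nonneg fun i _ => Finset.sum_nonneg fun a _ =>
      integral_nonneg fun y => sq_nonneg _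

end Vale.Agent.P363.Inter
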